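import Vale.Agent.P155S.RegB
import Vale.Agent.P155B.Loop

/-!
# P155: a Brownian motion which hits the closure of a connected set hits the set
-/

set_option linter.all false

noncomputable section

namespace Vale.Agent.P155S.Reg

open MeasureTheory Set Filter Topology Vale.Agent.P155.BL
open scoped NNReal ENNReal

variable {W : Measure Pa} {s a : ℝ}

/-- the path hits `F` before the time `s` -/
def Hit (F : Set ℂ) (s : ℝ) : Set Pr := {γ | MapsTo γ (Icc 0 s) Fᶜ}ᶜ

theorem mem_hit {F : Set ℂ} {γ : Pr} : γ ∈ Hit F s ↔ ∃ t ∈ Icc 0 s, γ t ∈ F := by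
  simp [Hit, MapsTo, and_assoc]

/-- small oscillations -/
def Osc (s h r : ℝ) : Set Pr := {γ | ∀ t ∈ Icc 0 s, ∀ t' ∈ Icc 0 s, |t - t'| ≤ h → ‖γ t - γ t'‖ ≤ r}

theorem osc_meas (s h r : ℝ) : MeasurableSet (Osc s h r) := by
  simp only [Osc, setOf_forall]
  exact (isClosed_iInter fun _ => isClosed_iInter fun _ => isClosed_iInter fun _ =>
    isClosed_iInter fun _ => isClosed_iInter fun _ =>
      isClosed_le (by fun_prop) continuous_const).measurableSet

theorem osc_small (hW : IsWiener W) (s : ℝ) {r : ℝ} (hr : 0 < r) (x : ℂ) :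
    Tendsto (fun n : ℕ => W (bm x ⁻¹' (Osc s (sc n) r)ᶜ)) atTop (𝓝 0) := by
  have := hW.prob
  have h := tendsto_measure_iInter_atTop (μ := W) (s := fun n : ℕ => bm x ⁻¹' (Osc s (sc n) r)ᶜ)
    (fun m => (m_bm x (osc_meas _ _ _).compl).nullMeasurableSet)
    (fun m n hmn ω h h' => h fun t ht t' ht' e => h' t ht t' ht' (e.trans (sc_anti hmn)))
    ⟨0, measure_ne_top _ _⟩
  rw [iInter_eq_empty_iff.2 fun ω => ?_, measure_empty] at h
  · exact h
  obtain ⟨δ, δ0, hδ⟩ := Metric.uniformContinuousOn_iff_le.1 ((isCompact_Icc (a := 0) (b := s)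
    ).uniformContinuousOn_of_continuous (bm x ω).continuous.continuousOn) r hr
  obtain ⟨n, hn⟩ := (sc_ev δ0).exists
  exact ⟨n, fun h => h fun t ht t' ht' e => by
    simpa [dist_eq_norm] using hδ t ht t' ht' (e.trans hn)⟩

theorem bm_reg (hW : IsWiener W) {F : Set ℂ} (hF : IsClosed F) (h2 : F.Nontrivial) (ha : 0 ≤ a)
    (has : a < s) : ∃ T : Set Pr, MeasurableSet T ∧ Dp s T ∧ (∀ x, W (bm x ⁻¹' T) = 0) ∧
      ∀ γ ∈ Hit F a, ∀ U, IsPreconnected U → F ⊆ closure U → (∀ t, γ t ∉ U) → γ ∈ T := by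
  classical
  have := hW.prob
  obtain ⟨d, hd, hn⟩ := no_null hW
  obtain ⟨u₁, hu₁, u₂, hu₂, hu⟩ := h2
  obtain ⟨η, η0, hη⟩ : ∃ η > 0, a + η + η = s := ⟨(s - a) / 2, by linarith, by ring⟩
  obtain ⟨ρ, ρ0, hρ⟩ : ∃ ρ > 0, 2 * ρ < ‖u₁ - u₂‖ :=
    ⟨‖u₁ - u₂‖ / 3, by simpa [sub_eq_zero] using hu, by linarith [norm_pos_iff.2 (sub_ne_zero.2 hu)]⟩
  let E : ℕ → ℕ → Set Pr := fun n => disjointed fun j => Hit F (j * sc n)
  have mH : ∀ t, MeasurableSet (Hit F t) := fun t =>
    (measurableSet_mapsTo_open isCompact_Icc hF.isOpen_compl).compl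
  have mE : ∀ n j, MeasurableSet (E n j) := fun n => MeasurableSet.disjointed fun j => mH _
  have dH : ∀ t t', t ≤ t' → ∀ γ γ' : Pr, (∀ r ∈ Icc 0 t', γ r = γ' r) → γ ∈ Hit F t → γ' ∈ Hit F t :=
    fun t t' e γ γ' h h' => let ⟨r, hr, hr'⟩ := mem_hit.1 h'
      mem_hit.2 ⟨r, hr, h r ⟨hr.1, hr.2.trans e⟩ ▸ hr'⟩
  have dE : ∀ n j : ℕ, Dp (j * sc n) (E n j) := fun n j γ γ' h h' => by
    simp only [E, disjointed_eq_inter_compl, mem_inter_iff, mem_iInter] at h' ⊢
    exact ⟨dH _ _ le_rfl _ _ h h'.1, fun i hi b => h'.2 i hi (dH _ _ (mul_le_mul_of_nonneg_right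
      (by exact_mod_cast hi.le) (sc_pos n).le) _ _ (fun r hr => (h r hr).symm) b)⟩
  have j0 : ∀ n j : ℕ, 0 ≤ j * sc n := fun n j => mul_nonneg j.cast_nonneg (sc_pos n).le
  let M : ℕ → ℕ → Set Pr := fun k n => (Osc s (sc n) (sc k / 4))ᶜ ∪
    ⋃ (j : ℕ) (_ : j * sc n ≤ a + η), E n j ∩ sft (j * sc n) ⁻¹' No d η ρ k
  refine ⟨⋂ (k) (n) (_ : sc n ≤ η), M k n, .iInter fun k => .iInter fun n => .iInter fun _ =>
    (osc_meas _ _ _).compl.union (.iUnion fun j => .iUnion fun _ =>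
      (mE n j).inter (m_sft _ (no_meas _ _ _ _))), fun γ γ' h h' => ?_, fun x => ?_,
      fun γ hγ U hU hFU hd' => ?_⟩
  · simp only [mem_iInter] at h' ⊢
    intro k n e
    rcases h' k n e with b | b
    · refine .inl fun c => b fun t ht t' ht' e => ?_
      rw [h t ht, h t' ht']
      exact c t ht t' ht' e
    · obtain ⟨j, hj, c⟩ := mem_iUnion₂.1 b
      exact .inr <| mem_iUnion₂.2 ⟨j, hj, (dE n j).mono (by linarith) _ _ h c.1,
        (((no_di hd.le η ρ k).sft (j0 n j) η0.le).dp (by linarith [j0 n j])).mono (by linarith)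
          _ _ h c.2⟩
  · refine le_zero_iff.1 (ge_of_tendsto' (hn η η0 ρ ρ0) fun k => ?_)
    have h1 := (osc_small hW s (show 0 < sc k / 4 by linarith [sc_pos k]) x).add_const
      (W (bm 0 ⁻¹' No d η ρ k))
    rw [zero_add] at h1
    refine ge_of_tendsto h1 ((sc_ev η0).mono fun n e => ?_)
    refine (measure_mono (t := bm x ⁻¹' (Osc s (sc n) (sc k / 4))ᶜ ∪
      ⋃ j : ℕ, bm x ⁻¹' (E n j ∩ sft (j * sc n) ⁻¹' No d η ρ k)) fun ω hω => ?_).trans
      ((measure_union_le _ _).trans (add_le_add_right ((measure_iUnion_le _).trans ?_) _))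
    · simp only [mem_preimage, mem_iInter] at hω
      refine Or.imp_right (fun b => ?_) (hω k n e)
      obtain ⟨j, -, c⟩ := mem_iUnion₂.1 b
      exact mem_iUnion.2 ⟨j, c⟩
    · simp only [fun j => mk hW (j0 n j) (mE n j) (no_meas d η ρ k) (dE n j) (no_di hd.le _ _ _) x]
      rw [ENNReal.tsum_mul_right, ← measure_iUnion (fun i j e => (disjoint_disjointed _ e).preimage _)
        fun j => m_bm x (mE n j)]
      exact mul_le_of_le_one_left' prob_le_one
  · simp only [mem_iInter]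
    refine fun k n e => or_iff_not_imp_left.2 fun b => ?_
    replace b := not_not.1 b
    have n0 := sc_pos n
    have hc : γ ∈ Hit F (⌈a / sc n⌉₊ * sc n) := mem_hit.2 ((mem_hit.1 hγ).imp fun t ht =>
      ⟨⟨ht.1.1, ht.1.2.trans ((div_le_iff₀ n0).1 (Nat.le_ceil _))⟩, ht.2⟩)
    have ex : ∃ j : ℕ, γ ∈ Hit F (j * sc n) := ⟨_, hc⟩
    obtain ⟨t, ht, ht'⟩ := mem_hit.1 (Nat.find_spec ex)
    have e1 : Nat.find ex * sc n ≤ a + η := by
      have := (lt_div_iff₀ n0).1 (lt_of_le_of_lt (a := (Nat.find ex : ℝ) - 1)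
        (sub_le_sub_right (Nat.cast_le.2 (Nat.find_min' ex hc)) 1)
        (sub_lt_iff_lt_add.2 (Nat.ceil_lt_add_one (div_nonneg ha n0.le))))
      linarith
    have e2 : Nat.find ex * sc n - t ≤ sc n := by
      rcases eq_or_ne (Nat.find ex) 0 with c | c
      · rw [c]
        push_cast
        linarith [ht.1]
      obtain ⟨i, hi⟩ := Nat.exists_eq_succ_of_ne_zero c
      have := fun c => Nat.find_min ex (hi ▸ Nat.lt_succ_self i) (mem_hit.2 ⟨t, ⟨ht.1, c⟩, ht'⟩)
      rw [hi]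
      push_cast
      linarith [not_le.1 this]
    refine mem_iUnion₂.2 ⟨_, e1, ?_, ?_⟩
    · simp only [E, disjointed_eq_inter_compl, mem_inter_iff, mem_iInter]
      exact ⟨Nat.find_spec ex, fun i hi => Nat.find_min ex hi⟩
    have e3 := b t ⟨ht.1, by linarith [ht.2]⟩ _ ⟨j0 n (Nat.find ex), by linarith⟩
      (abs_le.2 ⟨by linarith, by linarith [ht.2]⟩)
    set y := γ (Nat.find ex * sc n)
    obtain ⟨v, hv, hv'⟩ := Metric.mem_closure_iff.1 (hFU ht') (sc k / 4) (by linarith [sc_pos k])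
    obtain ⟨u, hu, hu'⟩ : ∃ u ∈ F, ρ < ‖u - y‖ := by
      by_contra c
      push Not at c
      linarith [c _ hu₁, c _ hu₂, norm_sub_le_norm_sub_add_norm_sub u₁ y u₂, norm_sub_rev y u₂]
    obtain ⟨w, hw, hw'⟩ := mem_closure_iff.1 (hFU hu) _ (isOpen_lt continuous_const
      (show Continuous fun u : ℂ => ‖u - y‖ by fun_prop)) hu'
    refine no_sep hd hU hw' hv (by rwa [sft_of _ le_rfl, add_zero]) ?_ fun t => hd' _
    rw [sft_of _ le_rfl, add_zero]
    rw [dist_comm, dist_eq_norm] at hv'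
    linarith [norm_sub_le_norm_sub_add_norm_sub v (γ t) y]

/-- null events before the end of the bridge -/
theorem wb_null (hW : IsWiener W) {T : Set Pr} (mT : MeasurableSet T) (hT : Dp s T) {x : ℂ}
    (h : W (bm x ⁻¹' T) = 0) (hs : 0 < s) {t : ℝ} (ht : s < t) (y : ℂ) : Wb W t x y T = 0 := by
  have h1 := hW.ac hs (sub_pos.2 ht) x y (F := T.indicator 1) (measurable_one.indicator mT)
  rw [add_sub_cancel] at h1
  rw [← lintegral_indicator_one mT]
  refine (lintegral_congr fun γ => ?_).trans (h1.trans ((lintegral_congr_ae ?_).trans lintegral_zero))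
  · by_cases c : γ ∈ T <;> simp [indicator, hT.stp, c]
  · filter_upwards [measure_eq_zero_iff_ae_notMem.1 h] with ω c
    rw [indicator_of_notMem (fun e => c ((hT.stp _).1 e)), zero_mul]

theorem br_null (hW : IsWiener W) {T : Set Pr} (mT : MeasurableSet T) (hT : Dp s T) {x : ℂ}
    (h : W (bm x ⁻¹' T) = 0) (hs : 0 < s) {t : ℝ} (ht : s < t) (y : ℂ) : W (br t x y ⁻¹' T) = 0 := by
  have := wb_null hW mT hT h hs ht y
  rw [Wb, Measure.smul_apply, Measure.map_apply (by fun_prop) mT, smul_eq_mul, mul_eq_zero] at this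
  exact this.resolve_left (ENNReal.ofReal_pos.2 (by have := hs.trans ht; positivity)).ne'

theorem loopM_null (hW : IsWiener W) {S : Set CL} (mS : MeasurableSet S)
    (h : ∀ z t, 0 < t → W (loopOf z t ⁻¹' S) = 0) : loopM W S = 0 := by
  have := hW.prob
  rw [loopM_apply mS]
  exact measure_eq_zero_iff_ae_notMem.2 (ae_loopT (p := fun q => q.2 ∉ S) (measurable_snd mS.compl)
    (.of_forall fun z t ht => measure_eq_zero_iff_ae_notMem.1 (h z t ht)))

/-- the loop does not separate `v` from `u` -/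
def Jo (v u : ℂ) : Set CL := {γ | u ∈ connectedComponentIn (range γ)ᶜ v}

theorem rng_open (γ : CL) : IsOpen (range γ)ᶜ := (isCompact_range γ.continuous).isClosed.isOpen_compl

theorem jo_open (v u : ℂ) : IsOpen (Jo v u) := isOpen_iff_forall_mem_open.2 fun γ hγ => by
  have hv := connectedComponentIn_nonempty_iff.1 ⟨u, hγ⟩
  have h := (((rng_open γ).connectedComponentIn.isConnected_iff_isPathConnected.1
    (isConnected_connectedComponentIn_iff.2 hv)).joinedIn _ (mem_connectedComponentIn hv) _ hγ)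
  obtain ⟨p, hp⟩ := h
  refine ⟨{γ' | MapsTo γ' univ (range p)ᶜ}, fun γ' h' => (isPreconnected_range p.continuous
    ).subset_connectedComponentIn ⟨0, p.source⟩ ?_ ⟨1, p.target⟩, ContinuousMap.isOpen_setOf_mapsTo
      isCompact_univ (isCompact_range p.continuous).isClosed.isOpen_compl, ?_⟩
  · rintro _ hz ⟨t, rfl⟩
    exact h' trivial hz
  · rintro t - ⟨r, e⟩
    exact connectedComponentIn_subset _ _ (hp r) ⟨t, e.symm⟩

/-- **REG**: almost every loop which meets the closure of a connected set meets the set. -/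
theorem reg (hW : IsWiener W) {U : Set ℂ} (hU : IsPreconnected U) (h2 : U.Nontrivial) :
    loopM W {γ | (range γ ∩ closure U).Nonempty ∧ Disjoint (range γ) U} = 0 := by
  obtain ⟨D, hD, cD, dD⟩ := (TopologicalSpace.IsSeparable.of_separableSpace U).exists_countable_dense_subset
  obtain ⟨u, hu⟩ := h2.nonempty
  have m : MeasurableSet ({γ : CL | range γ ⊆ (closure U)ᶜ}ᶜ ∩ ⋂ v ∈ D, Jo u v) :=
    (measurableSet_range_open isClosed_closure.isOpen_compl).compl.inter
      (.biInter cD fun v _ => (jo_open u v).measurableSet)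
  refine measure_mono_null (fun γ hγ => ?_) (loopM_null hW m fun z t ht => ?_)
  · obtain ⟨y, h1, h2⟩ := hγ.1
    exact ⟨fun c => c h1 h2, mem_iInter₂.2 fun v hv =>
      hU.subset_connectedComponentIn hu hγ.2.subset_compl_left (hD hv)⟩
  have key := fun (a s : ℝ) (h : 0 ≤ a ∧ a < s) =>
    bm_reg hW isClosed_closure (h2.mono subset_closure) h.1 h.2
  choose T a1 a2 a3 a4 using key
  have o : ∀ n : ℕ, 0 ≤ t - t * sc n ∧ t - t * sc n < t - t * sc n / 2 := fun n => by
    have := mul_pos ht (sc_pos n)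
    exact ⟨by nlinarith [sc_anti (Nat.zero_le n), show sc 0 = 1 by simp [sc]], by linarith⟩
  refine measure_mono_null (fun ω hω => ?_) (measure_iUnion_null fun n : ℕ =>
    br_null hW (a1 _ _ (o n)) (a2 _ _ (o n)) (a3 _ _ (o n) z) ((o n).1.trans_lt (o n).2)
      (t := t) (by linarith [mul_pos ht (sc_pos n)]) z)
  obtain ⟨_, ⟨y, rfl⟩, hy⟩ := not_subset.1 hω.1
  obtain ⟨r, hr, rfl⟩ := exists_coe y
  obtain ⟨n, hn⟩ := (sc_ev (sub_pos.2 hr.2)).exists
  refine mem_iUnion.2 ⟨n, a4 _ _ (o n) _ (mem_hit.2 ⟨r * t, ⟨mul_nonneg hr.1 ht.le, by nlinarith⟩, ?_⟩)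
    (connectedComponentIn (range (loopOf z t ω))ᶜ u) isPreconnected_connectedComponentIn
    (closure_minimal (dD.trans (closure_mono fun v hv => mem_iInter₂.1 hω.2 v hv)) isClosed_closure)
    fun s hs => connectedComponentIn_subset _ _ hs (range_loopOf ht z ω ▸ ⟨s, rfl⟩)⟩
  rw [← unr_loopOf ht, unr_apply, fr_of_mem (mul_nonneg hr.1 ht.le)
    (mul_le_of_le_one_left ht.le hr.2.le), mul_div_cancel_right₀ _ ht.ne']
  exact not_not.1 hy

/-- **REG2**: almost every loop separates small discs around `γ a` from the far points. -/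
theorem reg_pt (hW : IsWiener W) (a : Vale.Agent.P155.Q1.S1) {ρ : ℝ} (hρ : 0 < ρ) :
    ∀ᵐ γ : CL ∂loopM W, ∃ r > 0, ∀ v ∈ Metric.ball (γ a) r,
      connectedComponentIn (range γ)ᶜ v ⊆ Metric.closedBall (γ a) ρ := by
  obtain ⟨D, cD, dD⟩ := TopologicalSpace.exists_countable_dense ℂ
  let S : Vale.Agent.P155.Q1.S1 → Set CL := fun a => ⋂ k : ℕ, ⋃ v ∈ D, ⋃ u ∈ D,
    {γ | ‖v - γ a‖ < sc k / 2} ∩ {γ | ρ < ‖u - γ a‖} ∩ Jo v u
  have m : ∀ a, MeasurableSet (S a) := fun a => .iInter fun k => .biUnion cD fun v _ =>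
    .biUnion cD fun u _ => ((measurableSet_lt (by fun_prop) measurable_const).inter
      (measurableSet_lt measurable_const (by fun_prop))).inter (jo_open v u).measurableSet
  have h0 : loopM W (S 0) = 0 := loopM_null hW (m 0) fun z t ht => by
    have := hW.prob
    obtain ⟨d, hd, hn⟩ := no_null hW
    have t2 := half_pos ht
    refine measure_mono_null (fun ω hω => ?_) (br_null hW (T := ⋂ k : ℕ, No d (t / 2) ρ k)
      (.iInter fun k => no_meas _ _ _ _) (fun γ γ' h h' => mem_iInter.2 fun k =>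
        (no_di hd.le _ _ _).dp t2.le γ γ' h (mem_iInter.1 h' k)) (x := z) ?_ t2 (half_lt_self ht) z)
    · refine mem_iInter.2 fun k => ?_
      obtain ⟨v, -, h⟩ := mem_iUnion₂.1 (mem_iInter.1 hω k)
      obtain ⟨u, -, ⟨h1, h2⟩, h3⟩ := mem_iUnion₂.1 h
      simp only [mem_setOf_eq, loopOf_zero] at h1 h2
      exact no_sep hd isPreconnected_connectedComponentIn h3
        (mem_connectedComponentIn (connectedComponentIn_nonempty_iff.1 ⟨u, h3⟩))
        (by rwa [br_of_nonpos le_rfl]) (by rw [br_of_nonpos le_rfl]; exact h1.le)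
        fun s hs => connectedComponentIn_subset _ _ hs (range_loopOf ht z ω ▸ ⟨s, rfl⟩)
    · exact le_zero_iff.1 (ge_of_tendsto' (hn _ t2 ρ hρ) fun k => (no_di hd.le _ _ _).bm z ▸
        measure_mono (preimage_mono (iInter_subset _ k)))
  have h1 : loopM W (S a) = 0 := by
    rw [loopM_apply (m 0), ← hW.rot_map a, Measure.map_apply (s := {q : ℝ × CL | q.2 ∈ S 0})
      (by fun_prop) (measurable_snd (m 0))] at h0
    rw [loopM_apply (m a), ← h0]
    simp [S, Jo, range_rot]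
  filter_upwards [measure_eq_zero_iff_ae_notMem.1 h1] with γ hγ
  by_contra c
  push Not at c
  refine hγ (mem_iInter.2 fun k => ?_)
  obtain ⟨v, hv, h⟩ := c (sc k / 2) (half_pos (sc_pos k))
  obtain ⟨u, hu, hu'⟩ := not_subset.1 h
  have o := (rng_open γ).connectedComponentIn (x := v)
  obtain ⟨v', b1, b2, b3⟩ := dD.exists_mem_open (Metric.isOpen_ball.inter o)
    ⟨v, hv, mem_connectedComponentIn (connectedComponentIn_nonempty_iff.1 ⟨u, hu⟩)⟩
  obtain ⟨u', c1, c2, c3⟩ := dD.exists_mem_open (Metric.isClosed_closedBall.isOpen_compl.inter o)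
    ⟨u, hu', hu⟩
  exact mem_iUnion₂.2 ⟨v', b1, mem_iUnion₂.2 ⟨u', c1, ⟨mem_ball_iff_norm.1 b2,
    not_le.1 fun e => c2 (mem_closedBall_iff_norm.2 e)⟩, (connectedComponentIn_eq b3).subset c3⟩⟩

end Vale.Agent.P155S.Reg
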