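import Vale.Agent.P155S.FubC
import Vale.Agent.P155I.TK
import Vale.Agent.P155H.Slit
import Vale.Agent.P155.SW801.Top

/-!
# P155: one step of the exploration has the same law on both sides
-/

set_option linter.all false

noncomputable section

namespace Vale.Agent.P155S.Fub

open MeasureTheory Set Filter Topology Metric Vale.Agent.P155S.Poi Vale.Agent.P155 Vale.Agent.P155.BL
  Vale.Agent.P155.Soup Vale.Agent.P155.Geo Vale.Agent.P155.Uq Vale.Agent.P155S.Reg TopologicalSpace
open scoped NNReal ENNReal

variable {V Q R : Set ℂ}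

theorem sup_le {X : Type*} [MeasurableSpace X] {μ : Measure X} {F : X → Set ℂ} {c : ℝ≥0∞}
    (hR : IsClosed R) (hF : ∀ x, Bornology.IsBounded (F x)) (hQ : ∀ x, Q ⊆ F x) (h : ∀ η, 0 < η →
      Disjoint Q (cthickening η R) → μ {x | Disjoint (F x) (cthickening η R)} ≤ c) :
    μ {x | Disjoint (closure (F x)) R} ≤ c := by
  refine le_trans (measure_mono fun x hx => ?_) ((Monotone.measure_iUnion (μ := μ)
    (s := fun n => {x | Disjoint (F x) (cthickening (sc n) R)}) fun m n e x hx =>
      Disjoint.mono_right (cthickening_mono (sc_anti e) R) hx).trans_le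
        (iSup_le fun n => by_cases (h _ (sc_pos n)) fun e => (measure_mono (t := ∅) fun x hx =>
          e (Disjoint.mono_left (hQ x) hx)).trans (by simp)))
  obtain ⟨d, d0, hd⟩ := Disjoint.exists_cthickenings hx (hF x).isCompact_closure hR
  obtain ⟨n, hn⟩ := (sc_ev d0).exists
  exact mem_iUnion.2 ⟨n, hd.mono (subset_closure.trans (self_subset_cthickening _))
    (cthickening_mono hn R)⟩

theorem comp_meets (hV : IsOpen V) (h0 : Vᶜ.Nonempty) (hR : IsPreconnected (Vᶜ ∪ R)) {η : ℝ}
    {x z : ℂ} (hz : z ∈ connectedComponentIn (thickening η R ∩ V) x) :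
    (closure (connectedComponentIn (thickening η R ∩ V) x) ∩ Vᶜ).Nonempty := by
  by_contra h
  obtain ⟨r, r1, r2⟩ := mem_thickening_iff.1 (connectedComponentIn_subset _ _ hz).1
  have e0 : 0 < η := dist_nonneg.trans_lt r2
  have hx := connectedComponentIn_nonempty_iff.1 ⟨z, hz⟩
  obtain ⟨p, hp⟩ := h0
  refine hp (connectedComponentIn_subset _ _ ((hR.union r (.inr r1) (mem_ball_self e0)
    (convex_ball r η).isPreconnected).subset_of_closure_inter_subset
      (isOpen_thickening.inter hV).connectedComponentIn ⟨z, .inr r2, hz⟩ ?_ (.inl (.inl hp)))).2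
  rintro y ⟨y1, y2⟩
  have y3 : y ∈ V := by_contra fun c => h ⟨y, y1, c⟩
  refine (isPreconnected_connectedComponentIn.subset_closure (subset_insert y _)
    (insert_subset y1 subset_closure)).subset_connectedComponentIn (.inr (mem_connectedComponentIn hx))
      (insert_subset (mem_inter ?_ y3) (connectedComponentIn_subset _ _)) (.inl rfl)
  rcases y2 with (y2 | y2) | y2
  exacts [(y2 y3).elim, self_subset_thickening e0 R y2, ball_subset_thickening r1 η y2]

theorem f2_of (gs : GS) (f : F2f) : F2 := by
  intro P hP V Q R s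
  obtain ⟨ho, hb, -⟩ := id s.dom
  obtain ⟨g1, -, g2, -⟩ := gs V s.dom
  refine le_trans (measure_mono fun w hw => ?_) (sup_le (μ := P) (F := fun w => Q ∪ closure
    (Us (pts w) V Q)) s.cr (fun w => s.cq.isBounded.union (hb.subset us_sub).closure)
      (fun _ => subset_union_left) fun η e0 c => ?_)
  · rw [mem_setOf_eq, closure_union, closure_closure, s.cq.isClosed.closure_eq]
    exact disjoint_union_left.2 ⟨s.disj, hw⟩
  let Z : ℕ → Set ℂ := fun i => connectedComponentIn (thickening η R ∩ V) (denseSeq ℂ i)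
  let T : ℕ → Set ℂ := fun n => ⋃ i ∈ Iio n, closure (Z i)
  have hT : ∀ n, T n ⊆ cthickening η R := fun n => iUnion₂_subset fun i _ => (closure_mono
    ((connectedComponentIn_subset _ _).trans inter_subset_left)).trans
      (closure_thickening_subset_cthickening _ _)
  obtain ⟨p, hp⟩ := (compl_inf hb).nonempty
  have sd : ∀ n, Seed V Q (T n) := fun n => ⟨s.dom, s.cq, (finite_Iio n).isClosed_biUnion
    fun _ _ => isClosed_closure, c.mono_right (hT n), s.pq, isPreconnected_of_forall p fun y hy => by
      rcases hy with hy | hy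
      · exact ⟨_, subset_union_left, hp, hy, (dom_compl_conn s.dom).2⟩
      obtain ⟨i, hi, hy⟩ := mem_iUnion₂.1 hy
      obtain ⟨z, hz⟩ := closure_nonempty_iff.1 ⟨y, hy⟩
      exact ⟨Vᶜ ∪ closure (Z i), union_subset_union_right _ (subset_biUnion_of_mem
        (u := fun i => closure (Z i)) hi), .inl hp, .inr hy, (dom_compl_conn s.dom).2.union'
          (inter_comm _ _ ▸ comp_meets ho ⟨p, hp⟩ s.pr hz) isPreconnected_connectedComponentIn.closure⟩⟩
  have key : ∀ n, P {w | Disjoint (Q ∪ closure (Us (pts w) V Q)) (cthickening η R)} ≤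
      L1 V (Jm V (T n) Q)ᶜ := fun n => by
    refine le_trans (measure_mono fun w hw => ?_) ((f P hP V Q _ (sd n) ⟨(fun i =>
      closure (Z i) ∩ V) '' Iio n, (finite_Iio n).image _, ?_, ?_⟩).trans_eq (l1_eq gs (sd n)))
    · exact (disjoint_union_left.1 hw).2.mono_right (hT n)
    · rintro _ ⟨i, -, rfl⟩
      exact isPreconnected_connectedComponentIn.subset_closure (subset_inter subset_closure
        ((connectedComponentIn_subset _ _).trans inter_subset_right)) inter_subset_left
    · rw [sUnion_image, iUnion₂_inter]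
  refine (le_iInf key).trans ((Antitone.measure_iInter (fun m n e => ?_)
    (fun n => (measurableSet_jm ho _ _).compl.nullMeasurableSet)
      ⟨0, measure_ne_top _ _⟩).symm.trans_le (measure_mono_ae (g2.mono fun G hG h => ?_)))
  · exact compl_subset_compl.2 (iInter_mono fun k => jn_mono (thickening_subset_of_subset _
      (biUnion_subset_biUnion_left (Iio_subset_Iio e))) subset_rfl)
  refine kk_disj.2 ⟨s.disj, fun ⟨U, u1, u2, x, u3, u4⟩ => ?_⟩
  have hx : x ∈ thickening η R ∩ V := ⟨self_subset_thickening e0 R u4, hG.nice.inside U u1 u3⟩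
  obtain ⟨i, hi⟩ := ex_q (isOpen_thickening.inter ho).connectedComponentIn
    ⟨x, mem_connectedComponentIn hx⟩
  exact mem_iInter.1 h (i + 1) (jc_sub_jm ⟨U, u1, ⟨x, u3, mem_iUnion₂.2 ⟨i, Nat.lt_succ_self i,
    subset_closure ((connectedComponentIn_eq hi).subset (mem_connectedComponentIn hx))⟩⟩, u2⟩)

theorem thick_conn (hR : IsPreconnected R) {p : ℂ} (hp : p ∈ R) {η : ℝ} (e0 : 0 < η) :
    IsPreconnected (thickening η R) := isPreconnected_of_forall p fun y hy =>
  let ⟨r, r1, r2⟩ := mem_thickening_iff.1 hy
  ⟨R ∪ ball r η, union_subset (self_subset_thickening e0 R) (ball_subset_thickening r1 η), .inl hp,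
    .inr r2, hR.union r r1 (mem_ball_self e0) (convex_ball r η).isPreconnected⟩

theorem hit_us (hV : IsOpen V) (hQ : IsClosed Q) : Hit fun w : Cf CL => Us (pts w) V Q := fun O hO => by
  refine ms_congr (meas_disj hV hQ (R := O) ?_).compl fun _ => not_disjoint_iff_nonempty_inter.symm
  convert (measurableSet_range_closed (X := Q1.S1) hO.isClosed_compl).compl using 1
  ext γ
  simp [Mt, subset_compl_iff_disjoint_right, not_disjoint_iff_nonempty_inter]

theorem teq_of (law : LAW) (mg : MG) (gs : GS) (f1 : F1) (f2 : F2) : TEQ := by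
  intro P hP V Q hV hQ h0 pq
  obtain ⟨ho, hb, -⟩ := id hV
  obtain ⟨g1, -, g2, -⟩ := gs V hV
  obtain ⟨M, hM⟩ := (hQ.isBounded.union hb.closure).subset_ball 0
  have kk : ∀ G : NC, SWR.KK V Q G ⊆ ball 0 M := fun G => (union_subset_union_right _
    (sUnion_subset (by
      rintro _ ⟨_, ⟨_, -, rfl⟩, -, rfl⟩
      exact closure_mono ((connectedComponentIn_subset _ _).trans sdiff_subset)))).trans hM
  refine law.1 _ _ _ _ P (L1 V) (fun w => Q ∪ Us (pts w) V Q) (fun G => SWR.KK V Q G) M
    (let ⟨_, _, h⟩ := hP; h.prob) g1 ((Hit.const Q).union (hit_us ho hQ.isClosed))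
    (mg.1 _ _ id _ measurable_id (ROp.const ho) Q hQ) (fun w => ⟨h0.mono subset_union_left,
      (union_subset_union_right _ (us_sub.trans subset_closure)).trans hM⟩)
    (fun G => ⟨h0.mono subset_union_left, kk G⟩) fun R hR pr hM' => ?_
  obtain ⟨p, hp⟩ := (compl_inf (isBounded_ball (x := (0 : ℂ)) (r := M + 1))).nonempty
  have hp' : p ∈ Vᶜ := fun c => hp (ball_subset_ball (by linarith) (hM (.inr (subset_closure c))))
  refine le_antisymm ?_ (sup_le hR (fun G => isBounded_ball.subset (kk G))
    (fun _ => subset_union_left) fun η e0 c => ?_)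
  · by_cases c : Disjoint Q R
    swap
    · exact (measure_mono (t := ∅) fun w hw =>
        c (Disjoint.mono_left (subset_union_left.trans subset_closure) hw)).trans (by simp)
    refine le_trans (measure_mono fun w hw => ?_)
      ((f2 P hP V Q R ⟨hV, hQ, hR, c, pq, (dom_compl_conn hV).2.union p hp' (hM' hp) pr⟩).trans
        (measure_mono_ae (g2.mono fun G hG h => ?_)))
    · exact Disjoint.mono_left (closure_mono subset_union_right) hw
    show Disjoint _ _
    rwa [(SWR.isClosed_KK hQ.isClosed hG.nice.fin hb).closure_eq]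
  have e := closure_thickening_subset_cthickening η R
  have e' := self_subset_thickening e0 R
  refine (measure_mono fun G h => (Disjoint.mono_right e h :)).trans ((f1 P hP V Q _ ⟨hV, hQ,
    isClosed_closure, c.mono_right e, pq, (dom_compl_conn hV).2.union p hp'
      (subset_closure (e' (hM' hp))) (thick_conn pr (hM' hp) e0).closure⟩).trans
        (measure_mono fun w hw => ?_))
  exact ((disjoint_union_left.2 ⟨c.mono_right (thickening_subset_cthickening η R),
    Disjoint.mono_right subset_closure hw⟩).closure_left isOpen_thickening).mono_right e'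

end Vale.Agent.P155S.Fub
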