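import Vale.Agent.P155S.Sk2
import Vale.Agent.P155I.MS
import Vale.Agent.P155H.Slit
import Vale.Agent.P155H.Split
import Vale.Agent.P155B.Tail
import Vale.Agent.P155.SW801.Top

/-!
# P155: the restriction formula for several components
-/

set_option linter.all false
namespace Vale.Agent.P155.Soup

open MeasureTheory ProbabilityTheory Set Metric TopologicalSpace Filter Topology Vale.Agent.P155
  Vale.Agent.P155.Q1 Vale.Agent.P155.Tree Vale.Agent.P155.BL Vale.Agent.P155.Uq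
  Vale.Agent.P155S.Poi
open scoped NNReal ENNReal

namespace Mu

variable {W : Measure Pa} {V U B E b : Set ℂ}

/-- the loops in `V` which meet `b` and `E` -/
def SS (V b E : Set ℂ) : Set CL :=
  {γ : CL | range γ ⊆ V ∧ (range γ ∩ b).Nonempty ∧ (range γ ∩ E).Nonempty}

theorem ms_SS (hV : IsOpen V) (hb : IsClosed b) (hE : IsClosed E) : MeasurableSet (SS V b E) :=
  (measurableSet_range_open hV).inter
    ((ms_meet_closed measurable_id hb).inter (ms_meet_closed measurable_id hE))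

noncomputable def F0 (W : Measure Pa) (V b E : Set ℂ) : ℝ≥0∞ :=
  open Classical in if Disjoint b E then (ex (Lam W V b E))⁻¹ else 0

/-- a measurable version of the integrand -/
noncomputable def Fc (W : Measure Pa) (V B E : Set ℂ) (G : NC) : ℝ≥0∞ :=
  F0 W V (closure (SWR.KK V B G)) E

theorem sf (hW : IsWiener W) : SFinite (nu W) := by
  have := hW.sigmaFinite_loopM
  unfold nu
  infer_instance

theorem meas_Fc (hW : IsWiener W) (hV : IsOpen V) (hB : IsClosed B) (hE : IsClosed E) :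
    Measurable (Fc W V B E) := by
  have := sf hW
  have h : Hit fun G : NC => SWR.KK V B G :=
    hit_KK (hit_nc measurable_id) (fun x => x.isCompact.isClosed) (ROp.const hV) hB
  have h2 : Hit fun p : NC × CL => SWR.KK V B p.1 := fun O hO => measurable_fst (h O hO)
  refine Measurable.ite (h.disj hE) (meas_ex.comp ?_).inv measurable_const
  refine measurable_measure_prodMk_left (ν := nu W)
    (s := {p : NC × CL | p.2 ∈ SS V (closure (SWR.KK V B p.1)) E}) ?_
  refine (measurable_snd (measurableSet_range_open hV)).inter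
    (MeasurableSet.inter ?_ (ms_meet_closed measurable_snd hE))
  refine ms_congr ((hit_range measurable_snd).disj₂ h2
    fun x => (isCompact_range x.2.continuous).isBounded).compl fun x => ?_
  exact not_disjoint_iff_nonempty_inter.symm.trans (by rw [← closure_range]; rfl)

theorem mm_eq (gs : GS) (hV : Dom V) (hB : IsClosed B) : mm W V B E = ∫⁻ G, Fc W V B E G ∂(L1 V) := by
  refine lintegral_congr_ae ((gs V hV).2.2.1.mono fun G hG => ?_)
  have h := (SWR.isClosed_KK (Ω := V) (A := G) hB hG.nice.fin hV.2.1).closure_eq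
  rw [Fc, h, F0, indicator]
  congr 1

theorem loc_Fc (S : Set ℝ≥0∞) : LocG U (Fc W U B E ⁻¹' S) := fun G G' h => by
  have : U \ G = U \ G' := by rw [← sdiff_self_inter, inter_comm, h, inter_comm, sdiff_self_inter]
  simp only [mem_preimage, Fc, SWR.KK, IsHole, this]
  exact id

theorem prod_loc {κ : Measure NC} [IsProbabilityMeasure κ] {s : Finset (Set ℂ)}
    {f : Set ℂ → NC → ℝ≥0∞} (hf : ∀ U ∈ s, Measurable (f U))
    (hl : ∀ U S, LocG U (f U ⁻¹' S))
    (h : ∀ (t : Finset (Set ℂ)) (E : Set ℂ → Set NC), (∀ U ∈ t, U ∈ s ∧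
      MeasurableSet (E U) ∧ LocG U (E U)) → κ (⋂ U ∈ t, E U) = ∏ U ∈ t, L1 U (E U)) :
    ∫⁻ G, ∏ U ∈ s, f U G ∂κ = ∏ U ∈ s, ∫⁻ G, f U G ∂(L1 U) := by
  classical
  have h1 : ∀ U ∈ s, ∀ S, MeasurableSet S → κ (f U ⁻¹' S) = L1 U (f U ⁻¹' S) := fun U hU S hS => by
    simpa using h {U} (fun _ => f U ⁻¹' S) fun U' hU' => by
      rw [Finset.mem_singleton.1 hU']
      exact ⟨hU, hf U hU hS, hl U S⟩
  have h2 : iIndepFun (fun U : s => f U) κ := by
    rw [iIndepFun_iff_measure_inter_preimage_eq_mul]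
    intro t S hS
    set S' : Set ℂ → Set ℝ≥0∞ := fun U => if hU : U ∈ s then S ⟨U, hU⟩ else univ with hS'
    have e : ∀ U : s, S' U = S U := fun U => dif_pos U.2
    have h3 := h (t.map (Function.Embedding.subtype _)) (fun U => f U ⁻¹' S' U) fun U hU => by
      obtain ⟨U', hU', rfl⟩ := Finset.mem_map.1 hU
      exact ⟨U'.2, hf U' U'.2 ((e U').symm ▸ hS U' hU'), hl _ _⟩
    have e2 : ⋂ U ∈ t.map (Function.Embedding.subtype _), f U ⁻¹' S' U =
        ⋂ U ∈ t, f U ⁻¹' S U := by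
      ext G
      simp only [mem_iInter, Finset.forall_mem_map, Function.Embedding.coe_subtype, e]
    rw [Finset.prod_map, e2] at h3
    rw [h3]
    refine Finset.prod_congr rfl fun U hU => ?_
    rw [h1 U U.2 _ (hS U hU), ← e]
    rfl
  have h3 := lintegral_prod_eq_prod_lintegral_of_indepFun Finset.univ (fun U : s => f U) h2
    fun U => hf U U.2
  rw [← Finset.prod_coe_sort s, lintegral_congr fun G => (Finset.prod_coe_sort s
    fun U => f U G).symm, h3]
  refine Finset.prod_congr rfl fun U _ => ?_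
  have h4 : κ.map (f U) = (L1 U).map (f U) := Measure.ext fun S hS => by
    rw [Measure.map_apply (hf U U.2) hS, Measure.map_apply (hf U U.2) hS, h1 U U.2 S hS]
  have h5 := lintegral_map (μ := κ) measurable_id (hf U U.2)
  have h6 := lintegral_map (μ := L1 U) measurable_id (hf U U.2)
  rw [h4] at h5
  exact h5.symm.trans h6

/-- removing the other components from the seed -/
theorem seed_one (s : Seed V E B) {W1 : Set ℂ} (h1 : IsHole V E W1) :
    Seed V E (B \ ((V \ E) \ W1)) ∧ B \ ((V \ E) \ W1) ∩ V ⊆ W1 := by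
  have ho : IsOpen (V \ E) := s.dom.1.sdiff s.cq.isClosed
  have hW : IsOpen W1 := SWR.comp_open s.dom.1 s.cq.isClosed h1
  have hO : IsOpen ((V \ E) \ W1) := by
    refine isOpen_iff_forall_mem_open.2 fun x hx => ⟨connectedComponentIn (V \ E) x, fun y hy =>
      ⟨connectedComponentIn_subset _ _ hy, fun h => hx.2 ?_⟩, ho.connectedComponentIn,
      mem_connectedComponentIn hx.1⟩
    rw [SWR.comp_eq h1 h, ← connectedComponentIn_eq hy]
    exact mem_connectedComponentIn hx.1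
  have hs : ∀ x ∈ B, x ∈ V → x ∈ V \ E := fun x hx hv =>
    ⟨hv, fun h => Set.disjoint_left.1 s.disj h hx⟩
  have hc : IsClosed (B \ ((V \ E) \ W1)) := s.cr.sdiff hO
  refine ⟨⟨s.dom, s.cq, hc, s.disj.mono_right sdiff_subset, s.pq, ?_⟩,
    fun x hx => by_contra fun h => hx.1.2 ⟨hs x hx.1.1 hx.2, h⟩⟩
  have hV := Geo.dom_compl_conn s.dom
  have hVc : IsClosed Vᶜ := s.dom.1.isClosed_compl
  set K := Vᶜ ∪ B \ ((V \ E) \ W1) with hK
  have hKc : IsClosed K := hVc.union hc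
  have key : ∀ X Y : Set ℂ, IsClosed X → IsClosed Y → K ⊆ X ∪ Y → Vᶜ ⊆ X → (K ∩ Y).Nonempty →
      (K ∩ (X ∩ Y)).Nonempty := by
    intro X Y hX hY hXY hVX hne
    have hB' : IsClosed (K ∩ X ∪ B ∩ W1ᶜ) := (hKc.inter hX).union (s.cr.inter hW.isClosed_compl)
    obtain ⟨v, hv⟩ := hV.1
    obtain ⟨p, -, h2 | h2, h3⟩ := isPreconnected_closed_iff.1 s.pr _ _ hB' (hKc.inter hY)
      (fun x hx => by
        by_cases h : x ∈ K
        · exact (hXY h).imp (fun e => Or.inl ⟨h, e⟩) fun e => ⟨h, e⟩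
        · rcases hx with hx | hx
          · exact absurd (Or.inl hx) h
          · exact Or.inl (Or.inr ⟨hx, fun e => h (Or.inr ⟨hx, fun e' => e'.2 e⟩)⟩))
      ⟨v, Or.inl hv, Or.inl ⟨Or.inl hv, hVX hv⟩⟩
      (hne.mono fun x hx => ⟨hx.1.imp id fun e => e.1, hx⟩)
    · exact ⟨p, h2.1, h2.2, h3.2⟩
    · by_cases hp : p ∈ V
      · rcases h3.1 with e | e
        · exact absurd hp e
        · exact absurd ⟨hs p h2.1 hp, h2.2⟩ e.2
      · exact ⟨p, h3.1, hVX hp, h3.2⟩
  refine isPreconnected_closed_iff.2 fun X Y hX hY hXY h2 h3 => by_contra fun hc => ?_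
  have h4 : Vᶜ ∩ (X ∩ Y) = ∅ := by
    rw [← not_nonempty_iff_eq_empty]
    exact fun e => hc (e.mono (inter_subset_inter_left _ subset_union_left))
  rcases (isPreconnected_iff_subset_of_disjoint_closed.1 hV.2) X Y hX hY
    (subset_union_left.trans hXY) h4 with e | e
  · exact hc (key X Y hX hY hXY e h3)
  · exact hc (inter_comm X Y ▸ key Y X hY hX (union_comm X Y ▸ hXY) e h2)

theorem seed_sub (s : Seed V E B) (hU : Dom U) (h : U ⊆ V) : Seed U E B := by
  obtain ⟨v, hv⟩ := (Geo.dom_compl_conn s.dom).1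
  have k : ∀ A : Set ℂ, IsPreconnected (Vᶜ ∪ A) → IsPreconnected (Uᶜ ∪ A) := fun A hA => by
    have := (Geo.dom_compl_conn hU).2.union v (compl_subset_compl.2 h hv) (Or.inl hv) hA
    rwa [← union_assoc, union_eq_left.2 (compl_subset_compl.2 h)] at this
  exact ⟨hU, s.cq, s.cr, s.disj, k _ s.pq, k _ s.pr⟩

theorem KK_union {G : Set ℂ} (h : ∀ H, IsHole V G H → closure H ⊆ V) :
    SWR.KK V (Vᶜ ∪ B) G = Vᶜ ∪ SWR.KK V B G := by
  unfold SWR.KK
  rw [union_assoc]
  congr 3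
  ext C
  refine exists_congr fun H => and_congr_right fun hH => and_congr_left' ?_
  rw [inter_union_distrib_left, (disjoint_compl_right_iff_subset.2 (h H hH)).inter_eq, empty_union]

theorem inv_sum {ι : Type} (s : Finset ι) (f : ι → ℝ≥0∞) :
    (ex (∑ i ∈ s, f i))⁻¹ = ∏ i ∈ s, (ex (f i))⁻¹ := by
  classical
  induction s using Finset.induction_on with
  | empty => simp
  | insert a s ha ih =>
    rw [Finset.sum_insert ha, Finset.prod_insert ha, ex_add,
      ENNReal.mul_inv (Or.inr (ex_ne_top _)) (Or.inl (ex_ne_top _)), ih]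

theorem point {B1 : Set ℂ} {G : NC} (hV : Dom V) (hE : IsClosed E) (hB : IsClosed B)
    (hB1 : IsClosed B1) (h1 : B1 ⊆ B) (hd : Disjoint E B) (hG : GoodG V G)
    {s : Finset (Set ℂ)} (hs : ∀ U ∈ s, IsHole V (SWR.KK V (Vᶜ ∪ B1) G) U)
    (hc : ∀ U, IsHole V (SWR.KK V (Vᶜ ∪ B1) G) U → (U ∩ B).Nonempty → U ∈ s) :
    Fc W V B1 E G * ∏ U ∈ s, Fc W U B E G ≤ Fc W V B E G := by
  classical
  have c1 := SWR.isClosed_KK (Ω := V) (A := G) hB1 hG.nice.fin hV.2.1
  have c2 := SWR.isClosed_KK (Ω := V) (A := G) hB hG.nice.fin hV.2.1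
  have c3 := SWR.isClosed_KK (Ω := V) (A := G) (hV.1.isClosed_compl.union hB1) hG.nice.fin hV.2.1
  have e := KK_union (B := B1) hG.nice.inside
  by_cases d1 : Disjoint (SWR.KK V B1 G) E
  swap
  · simp [Fc, F0, c1.closure_eq, d1]
  by_cases d2 : ∀ U ∈ s, Disjoint (closure (SWR.KK U B G)) E
  swap
  · push Not at d2
    obtain ⟨U, hU, d2⟩ := d2
    rw [Finset.prod_eq_zero hU (by simp [Fc, F0, d2]), mul_zero]
    exact zero_le
  have s1 : SWR.KK V B1 G ⊆ SWR.KK V B G := union_subset_union h1 (sUnion_subset_sUnion (by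
    rintro _ ⟨H, a1, a2, rfl⟩
    exact ⟨H, a1, a2.mono (inter_subset_inter_right _ h1), rfl⟩))
  have s2 : ∀ U ∈ s, closure (SWR.KK U B G) ⊆ SWR.KK V B G := fun U hU =>
    closure_minimal (union_subset_union_right _ (sUnion_subset_sUnion (by
      rintro _ ⟨H, a1, a2, rfl⟩
      refine ⟨H, ?_, a2, rfl⟩
      obtain ⟨x, hx, rfl⟩ := a1
      have a3 : IsHole V G (connectedComponentIn (V \ G) x) :=
        ⟨x, ⟨(SWR.comp_sub (hs U hU) hx.1).1, hx.2⟩, rfl⟩
      have a4 := SWR.hole_sub_comp hV.1 a3 (hs U hU)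
        ⟨x, mem_connectedComponentIn ⟨(SWR.comp_sub (hs U hU) hx.1).1, hx.2⟩, hx.1⟩
      convert a3 using 1
      refine Subset.antisymm (connectedComponentIn_mono _ (sdiff_subset_sdiff_left
        ((SWR.comp_sub (hs U hU)).trans sdiff_subset))) ?_
      exact isPreconnected_connectedComponentIn.subset_connectedComponentIn
        (mem_connectedComponentIn ⟨(SWR.comp_sub (hs U hU) hx.1).1, hx.2⟩)
        fun y hy => ⟨a4 hy, (connectedComponentIn_subset _ _ hy).2⟩))) c2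
  have d3 : Disjoint (SWR.KK V B G) E := by
    refine disjoint_union_left.2 ⟨hd.symm, disjoint_sUnion_left.2 ?_⟩
    rintro _ ⟨H, a1, ⟨p, p1, p2⟩, rfl⟩
    rcases SWR.hole_cases (subset_union_left (t := B1)) a1 (hG.nice.disj H · a1) with a | ⟨U, a, a'⟩
    · refine d1.mono_left fun x hx => ?_
      rcases e.subset (a hx) with a2 | a2
      · exact absurd (hG.nice.inside H a1 hx) a2
      · exact a2
    · have hU := hc U a ⟨p, a' p1, p2⟩
      refine (d2 U hU).mono_left (Subset.trans ?_ subset_closure)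
      refine SWR.touched_sub ?_ ⟨p, p1, p2⟩
      obtain ⟨x, hx⟩ := (Geo.hole_conn a1).1
      refine ⟨x, ⟨a' (subset_closure hx), (Geo.hole_sub a1 hx).2⟩, Subset.antisymm ?_ ?_⟩
      · exact (Geo.hole_conn a1).2.subset_connectedComponentIn hx
          fun y hy => ⟨a' (subset_closure hy), (Geo.hole_sub a1 hy).2⟩
      · rw [Geo.hole_eq a1 hx]
        exact connectedComponentIn_mono _ (sdiff_subset_sdiff_left
          ((SWR.comp_sub a).trans sdiff_subset))
  have o : ∀ U ∈ s, IsOpen U := fun U hU => SWR.comp_open hV.1 c3 (hs U hU)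
  have l : Lam W V (SWR.KK V B1 G) E + ∑ U ∈ s, Lam W U (closure (SWR.KK U B G)) E ≤
      Lam W V (SWR.KK V B G) E := by
    change nu W (SS _ _ _) + ∑ U ∈ s, nu W (SS _ _ _) ≤ nu W (SS _ _ _)
    rw [← measure_biUnion_finset _ fun U hU => ms_SS (o U hU) isClosed_closure hE,
      ← measure_union _ (Finset.measurableSet_biUnion _ fun U hU =>
        ms_SS (o U hU) isClosed_closure hE)]
    · refine measure_mono (union_subset (fun γ h => ⟨h.1, h.2.1.mono
        (inter_subset_inter_right _ s1), h.2.2⟩) (iUnion₂_subset fun U hU γ h => ⟨h.1.trans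
        ((SWR.comp_sub (hs U hU)).trans sdiff_subset), h.2.1.mono
        (inter_subset_inter_right _ (s2 U hU)), h.2.2⟩))
    · refine disjoint_iUnion₂_right.2 fun U hU => Set.disjoint_left.2 ?_
      rintro γ ⟨-, ⟨x, x1, x2⟩, -⟩ h
      exact (SWR.comp_sub (hs U hU) (h.1 x1)).2 (e.superset (Or.inr x2))
    · intro U hU U' hU' hne
      refine Set.disjoint_left.2 fun γ h h' => hne ?_
      exact Geo.hole_meet (hs U hU) (hs U' hU') (h.1 ⟨0, rfl⟩) (h'.1 ⟨0, rfl⟩)
  have e2 : ∏ U ∈ s, Fc W U B E G = ∏ U ∈ s, (ex (Lam W U (closure (SWR.KK U B G)) E))⁻¹ :=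
    Finset.prod_congr rfl fun U hU => if_pos (d2 U hU)
  rw [e2, ← inv_sum]
  simp only [Fc, F0, c1.closure_eq, c2.closure_eq, d1, d3, if_true]
  rw [← ENNReal.mul_inv (Or.inr (ex_ne_top _)) (Or.inl (ex_ne_top _)), ← ex_add]
  exact ENNReal.inv_le_inv.2 (ex_anti.antitone l)

/-- the other components lie in components of the complement of the hull -/
theorem other {B1 W1 W2 : Set ℂ} {G : NC} (h1 : IsHole V E W1) (h2 : IsHole V E W2)
    (hne : W2 ≠ W1) (hB : B1 ∩ V ⊆ W1) (hG : GoodG V G) (hd : Disjoint (SWR.KK V B1 G) E) :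
    W2 ⊆ V \ SWR.KK V (Vᶜ ∪ B1) G := fun x hx => by
  have hv := (Geo.hole_sub h2 hx).1
  refine ⟨hv, fun h => hne (Geo.hole_meet h2 h1 hx ?_)⟩
  rcases (KK_union hG.nice.inside).subset h with h | h | ⟨_, ⟨H, a1, ⟨p, p1, p2⟩, rfl⟩, h⟩
  · exact absurd hv h
  · exact hB ⟨h, hv⟩
  · have a2 := hG.nice.inside H a1
    exact Geo.sub_hole h1 (Geo.hole_conn a1).2.closure (fun y hy => ⟨a2 hy, Set.disjoint_left.1 hd
      (SWR.touched_sub a1 ⟨p, p1, p2⟩ hy)⟩) p1 (hB ⟨p2, a2 p1⟩) h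

theorem step (hc : MGEc) (gm : GM) (gs : GS) (hW : IsWiener W) (n : ℕ) :
    ∀ V E B, Seed V E B → ∀ t : Finset (Set ℂ), t.card ≤ n → (∀ D ∈ t, IsHole V E D) →
      B ∩ V ⊆ ⋃₀ (t : Set (Set ℂ)) → 1 ≤ mm W V B E := by
  classical
  induction n with
  | zero =>
    intro V E B s t ht _ h
    rw [Finset.card_eq_zero.1 (Nat.le_zero.1 ht)] at h
    exact hc W hW V E B s ⟨0, h.trans (by simp)⟩
  | succ n ih =>
    intro V E B s t ht h1 h2
    rcases t.eq_empty_or_nonempty with rfl | ⟨W1, hW1⟩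
    · exact hc W hW V E B s ⟨0, h2.trans (by simp)⟩
    obtain ⟨s1, s2⟩ := seed_one s (h1 W1 hW1)
    set B1 := B \ ((V \ E) \ W1) with hB1
    have hE := s.cq.isClosed
    have m1 := meas_Fc (V := V) hW s.dom.1 s1.cr hE
    have m2 := meas_Fc (V := V) hW s.dom.1 s.cr hE
    have b1 : 1 ≤ mm W V B1 E := by
      obtain ⟨z, -, rfl⟩ := h1 W1 hW1
      exact hc W hW V E B1 s1 ⟨z, s2⟩
    have hK : IsClosed (Vᶜ ∪ B1) := s.dom.1.isClosed_compl.union s1.cr
    obtain ⟨X, _, ν, κ, b, _, mκ, pκ, hb, hy⟩ := gm V (Vᶜ ∪ B1) s.dom hK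
      ⟨(Geo.dom_compl_conn s.dom).1.mono subset_union_left, s1.pr⟩ subset_union_left
    have hg := (gs V s.dom).2.2.1
    rw [← hb] at hg
    refine b1.trans ?_
    rw [mm_eq gs s.dom s1.cr, mm_eq gs s.dom s.cr, ← hb,
      Measure.lintegral_bind mκ.aemeasurable m1.aemeasurable,
      Measure.lintegral_bind mκ.aemeasurable m2.aemeasurable]
    refine lintegral_mono_ae ?_
    filter_upwards [hy, Measure.ae_ae_of_ae_bind mκ.aemeasurable hg] with y ⟨y1, y2, y3⟩ y4
    have := pκ y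
    have f1 : ∀ᵐ G ∂(κ y), Fc W V B1 E G = F0 W V (B1 ∪ b y ∩ V) E := by
      filter_upwards [y1, y4] with G a1 a2
      rw [Fc, (SWR.isClosed_KK (Ω := V) (A := G) s1.cr a2.nice.fin s.dom.2.1).closure_eq, ← a1,
        KK_union a2.nice.inside, union_inter_distrib_right, compl_inter_self, empty_union]
      congr 1
      refine Subset.antisymm (union_subset subset_union_left ?_)
        (union_subset subset_union_left inter_subset_left)
      rintro x ⟨_, ⟨H, c1, c2, rfl⟩, c3⟩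
      exact Or.inr ⟨SWR.touched_sub c1 c2 c3, a2.nice.inside H c1 c3⟩
    rw [lintegral_congr_ae f1, lintegral_const, measure_univ, mul_one]
    by_cases d : Disjoint (B1 ∪ b y ∩ V) E
    swap
    · simp [F0, d]
    obtain ⟨G0, g1, g2⟩ := (y1.and y4).exists
    have d0 : Disjoint (SWR.KK V B1 G0) E := d.mono_left (union_subset subset_union_left (by
      rintro x ⟨_, ⟨H, c1, c2, rfl⟩, c3⟩
      exact Or.inr ⟨g1 ▸ (KK_union g2.nice.inside).superset (Or.inr (SWR.touched_sub c1 c2 c3)),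
        g2.nice.inside H c1 c3⟩))
    have o : ∀ D ∈ t.erase W1, D ⊆ V \ b y := fun D hD => g1 ▸ other (h1 W1 hW1)
      (h1 D (Finset.mem_of_mem_erase hD)) (Finset.ne_of_mem_erase hD) s2 g2 d0
    have cv : ∀ U, IsHole V (b y) U → ∀ p ∈ B ∩ U, ∃ D ∈ t.erase W1, p ∈ D ∧ D ⊆ U := by
      intro U hU p hp
      have p1 := Geo.hole_sub hU hp.2
      obtain ⟨D, hD, pD⟩ := h2 ⟨hp.1, p1.1⟩
      have hD' : D ∈ t.erase W1 := Finset.mem_erase.2 ⟨fun e => p1.2 (g1 ▸ SWR.sub_KK _ _ _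
        (Or.inr ⟨hp.1, fun e' => e'.2 (e ▸ pD)⟩)), hD⟩
      exact ⟨D, hD', pD, Geo.sub_hole hU (Geo.hole_conn (h1 D hD)).2 (o D hD') pD hp.2⟩
    have fin : {U | IsHole V (b y) U ∧ (U ∩ B).Nonempty}.Finite := by
      refine ((t.erase W1).finite_toSet.biUnion (t := fun D => {U | IsHole V (b y) U ∧ D ⊆ U})
        fun D hD => Set.Subsingleton.finite fun U hU U' hU' => ?_).subset ?_
      · obtain ⟨x, hx⟩ := (Geo.hole_conn (h1 D (Finset.mem_of_mem_erase hD))).1
        exact Geo.hole_meet hU.1 hU'.1 (hU.2 hx) (hU'.2 hx)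
      · rintro U ⟨hU, p, p1, p2⟩
        obtain ⟨D, hD, -, a⟩ := cv U hU p ⟨p2, p1⟩
        exact mem_biUnion hD ⟨hU, a⟩
    have hs : ∀ U ∈ fin.toFinset, IsHole V (b y) U := fun U hU => (fin.mem_toFinset.1 hU).1
    have mU : ∀ U ∈ fin.toFinset, Measurable (Fc W U B E) := fun U hU =>
      meas_Fc hW (y2 U (hs U hU)).1 s.cr hE
    have pr := prod_loc (κ := κ y) mU (fun U S => loc_Fc S) fun t E h =>
      y3 t E fun U hU => ⟨hs U (h U hU).1, (h U hU).2⟩
    have one : 1 ≤ ∏ U ∈ fin.toFinset, ∫⁻ G, Fc W U B E G ∂(L1 U) := by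
      refine Finset.one_le_prod' fun U hU => ?_
      have hV : U ⊆ V := (Geo.hole_sub (hs U hU)).trans sdiff_subset
      rw [← mm_eq gs (y2 U (hs U hU)) s.cr]
      refine ih U E B (seed_sub s (y2 U (hs U hU)) hV) ((t.erase W1).filter (· ⊆ U))
        ((Finset.card_filter_le _ _).trans (by rw [Finset.card_erase_of_mem hW1]; omega))
        (fun D hD => ?_) fun p hp => ?_
      · obtain ⟨a1, a2⟩ := Finset.mem_filter.1 hD
        have a3 := h1 D (Finset.mem_of_mem_erase a1)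
        obtain ⟨x, hx⟩ := (Geo.hole_conn a3).1
        refine ⟨x, ⟨a2 hx, (Geo.hole_sub a3 hx).2⟩, Subset.antisymm ?_ ?_⟩
        · exact (Geo.hole_conn a3).2.subset_connectedComponentIn hx
            fun z hz => ⟨a2 hz, (Geo.hole_sub a3 hz).2⟩
        · rw [Geo.hole_eq a3 hx]
          exact connectedComponentIn_mono _ (sdiff_subset_sdiff_left hV)
      · obtain ⟨D, hD, a1, a2⟩ := cv U (hs U hU) p hp
        exact ⟨D, Finset.mem_coe.2 (Finset.mem_filter.2 ⟨hD, a2⟩), a1⟩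
    calc _ ≤ F0 W V (B1 ∪ b y ∩ V) E * ∫⁻ G, ∏ U ∈ fin.toFinset, Fc W U B E G ∂(κ y) := by
          rw [pr]
          exact le_mul_of_one_le_right' one
      _ = ∫⁻ G, F0 W V (B1 ∪ b y ∩ V) E * ∏ U ∈ fin.toFinset, Fc W U B E G ∂(κ y) :=
          (lintegral_const_mul _ (Finset.measurable_fun_prod _ mU)).symm
      _ ≤ _ := by
          refine lintegral_mono_ae ?_
          filter_upwards [y1, y4, f1] with G a1 a2 a3
          rw [← a3]
          exact point s.dom hE s.cr s1.cr sdiff_subset s.disj a2 (by rw [a1]; exact hs)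
            fun U c1 c2 => fin.mem_toFinset.2 ⟨by rwa [a1] at c1, c2⟩

end Mu

/-- **MGE** from the case of one component -/
theorem mge_of (hc : MGEc) (gm : GM) (gs : GS) : MGE := by
  rintro W hW V E B s ⟨c, c1, c2, c3⟩
  have fin : {D | IsHole V E D ∧ (D ∩ B).Nonempty}.Finite := by
    refine (c1.biUnion (t := fun Z => {D | IsHole V E D ∧ (D ∩ Z).Nonempty})
      fun Z hZ => Set.Subsingleton.finite ?_).subset ?_
    · rintro D ⟨a1, x, x1, x2⟩ D' ⟨a2, y, y1, y2⟩
      have z : Z ⊆ V \ E := fun p hp =>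
        have := c3.superset (subset_sUnion_of_mem hZ hp)
        ⟨this.2, fun h => Set.disjoint_left.1 s.disj h this.1⟩
      exact Geo.hole_meet a1 a2 (Geo.sub_hole a1 (c2 Z hZ) z x2 x1 y2) y1
    · rintro D ⟨a1, x, x1, x2⟩
      obtain ⟨Z, hZ, x3⟩ := c3.subset ⟨x2, (Geo.hole_sub a1 x1).1⟩
      exact mem_biUnion hZ ⟨a1, x, x1, x3⟩
  refine Mu.step hc gm gs hW _ V E B s fin.toFinset le_rfl
    (fun D hD => (fin.mem_toFinset.1 hD).1) fun p hp => ?_
  have h : p ∈ V \ E := ⟨hp.2, fun h => Set.disjoint_left.1 s.disj h hp.1⟩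
  exact ⟨_, Finset.mem_coe.2 (fin.mem_toFinset.2 ⟨⟨p, h, rfl⟩, p, mem_connectedComponentIn h,
    hp.1⟩), mem_connectedComponentIn h⟩

end Vale.Agent.P155.Soup
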