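import Vale.Agent.P155Z.Defs
import Vale.Agent.P155B.Defs

/-!
# P155: nested CLE₄ from the Brownian loop soup of central charge `1`: definitions

The loop soup in `Ω` is a Poisson point process with intensity `c / 2` times the Brownian loop
measure restricted to the loops in `Ω`, `c = 1`.  CLE₄ is the collection of the outer boundaries of
its outermost clusters (Sheffield, Werner); nested CLE₄ iterates this inside every loop.
-/

namespace Vale.Agent.P155.Soup

open MeasureTheory ProbabilityTheory Set Vale.Agent.P155 Vale.Agent.P155.Q1 Vale.Agent.P155.Tree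
  Vale.Agent.P155.BL
open scoped NNReal ENNReal

/-- The points `L 0, L 1, …` form a Poisson point process with intensity `ν`: the numbers of points
in disjoint sets of finite measure are independent Poisson variables with means the measures. -/
structure IsPoisson {Θ E : Type} [MeasurableSpace Θ] [MeasurableSpace E] (P : Measure Θ)
    (ν : Measure E) (L : ℕ → Θ → E) : Prop where
  prob : IsProbabilityMeasure P
  meas : ∀ n, Measurable (L n)
  law : ∀ B, MeasurableSet B → ν B ≠ ∞ → ∀ k : ℕ,
    P {ω | {n | L n ω ∈ B}.encard = k} = poissonMeasure (ν B).toNNReal {k}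
  indep : ∀ (m : ℕ) (B : Fin m → Set E), (∀ i, MeasurableSet (B i)) → (∀ i, ν (B i) ≠ ∞) →
    Pairwise (fun i j => Disjoint (B i) (B j)) →
    iIndepFun (fun i ω => {n | L n ω ∈ B i}.encard) P

/-- The intensity of the loop soup of central charge `1` in `Ω`: one half of the Brownian loop
measure, restricted to the loops which stay in `Ω`. -/
noncomputable def intensity (W : Measure C(ℝ≥0, ℂ)) (Ω : Set ℂ) : Measure C(S1, ℂ) :=
  (1 / 2 : ℝ≥0∞) • (loopM W).restrict {γ | range γ ⊆ Ω}

/-- The cluster of the loop `γ` in the family `𝓛`: the union of the loops which are joined to `γ`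
by a finite chain of loops of `𝓛`, consecutive ones intersecting. -/
def cluster (𝓛 : Set C(S1, ℂ)) (γ : C(S1, ℂ)) : Set ℂ :=
  ⋃ γ' ∈ {γ' | Relation.ReflTransGen
    (fun a b : C(S1, ℂ) => b ∈ 𝓛 ∧ (range a ∩ range b).Nonempty) γ γ'}, range γ'

/-- The filling of `C`: the complement of the unbounded component of the complement of its closure.
Its boundary is the outer boundary of `C`. -/
def fill (C : Set ℂ) : Set ℂ :=
  {z | Bornology.IsBounded (connectedComponentIn (closure C)ᶜ z)}

/-- The fillings of the outermost clusters: those which lie in no larger filling. -/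
def outer (𝓛 : Set C(S1, ℂ)) : Set (Set ℂ) :=
  {F | Maximal (fun F => ∃ γ ∈ 𝓛, F = fill (cluster 𝓛 γ)) F}

/-- **Nested CLE₄ by the Brownian loop soup**: `μ Ω` is a law of collections of simple loops in
`Ω`; for every loop soup in `Ω`, `μ Ω` is the mixture of laws `κ ω` under which the collection
consists of the outer boundaries of the outermost clusters and of independent collections with
laws `μ V` in the domains `V` enclosed by these boundaries. -/
structure IsSoupCLE (μ : Set ℂ → Measure LoopColl) : Prop where
  prob : ∀ Ω, Dom Ω → IsProbabilityMeasure (μ Ω)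
  simple : ∀ Ω, Dom Ω → ∀ᵐ Γ ∂(μ Ω), ∀ l, Γ.mult l ≠ 0 → ∃ (γ : PL) (U : Set ℂ), IsOpen U ∧
    U.Nonempty ∧ closure U ⊆ Ω ∧ IsJordan γ (frontier U) ∧ SeparationQuotient.mk γ = l
  step : ∀ Ω, Dom Ω → ∀ W, IsWiener W →
    ∀ (Θ : Type) (_ : MeasurableSpace Θ) (P : Measure Θ) (L : ℕ → Θ → C(S1, ℂ)),
    IsPoisson P (intensity W Ω) L →
    ∃ κ : Θ → Measure LoopColl, Measurable κ ∧ (∀ ω, IsProbabilityMeasure (κ ω)) ∧
      P.bind κ = μ Ω ∧ ∀ᵐ ω ∂P,
        (∀ F ∈ outer (range fun n => L n ω), frontier (interior F) = frontier F) ∧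
        Given μ (κ ω) (interior '' outer (range fun n => L n ω))
          (interior '' outer (range fun n => L n ω))

end Vale.Agent.P155.Soup
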