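import Vale.Agent.P155S.PoiE
import Vale.Agent.P155S.Defs

/-!
# P155S: sequences of points with independent Poisson counts
-/

noncomputable section

open MeasureTheory ProbabilityTheory Set
open scoped ENNReal NNReal

namespace Vale.Agent.P155S.Poi

open Vale.Agent.P155.Soup

variable {Θ E : Type} [MeasurableSpace Θ] [MeasurableSpace E] {ν : Measure E} [SigmaFinite ν]
  {μ : Measure Θ} {L : ℕ → Θ → E}

omit [SigmaFinite ν] in
theorem meas_seq (h : IsPoisson μ ν L) : Measurable fun ω => al fun n => L n ω :=
  meas_all.comp (measurable_pi_lambda _ h.meas)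

/-- a Poisson sequence is a Poisson point process; its points are `range fun n => L n ω` -/
theorem ppp_of_poisson (h : IsPoisson μ ν L) : IsPPP ν (μ.map fun ω => al fun n => L n ω) :=
  have := h.prob
  .of_ct (meas_seq h) (by simpa only [ct_al] using h.law) (by simpa only [ct_al] using h.indep)

theorem poisson_of_ppp [StandardBorelSpace E] [IsProbabilityMeasure μ] (m : ∀ n, Measurable (L n))
    (h : IsPPP ν (μ.map fun ω => al fun n => L n ω)) : IsPoisson μ ν L := by
  have mξ : Measurable fun ω => al fun n => L n ω := meas_all.comp (measurable_pi_lambda _ m)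
  refine ⟨inferInstance, m, fun B hB e k => ?_, fun n B hB _ d => ?_⟩
  · simp only [← h.law_ct hB e, ← ct_al]
    exact (Measure.map_apply mξ (meas_ct hB (measurableSet_singleton _))).symm
  · simp only [← ct_al]
    exact (iIndepFun_iff_measure_inter_preimage_eq_mul.2 fun t A hA => by
      have := iIndepFun_iff_measure_inter_preimage_eq_mul.1 (h.indep_ct hB d) t hA
      rw [Measure.map_apply mξ (t.measurableSet_biInter fun i hi => meas_ct (hB i) (hA i hi)),
        Finset.prod_congr rfl fun i hi => Measure.map_apply mξ (meas_ct (hB i) (hA i hi))] at this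
      rw [preimage_iInter₂] at this
      exact this)

/-- **existence** of Poisson sequences -/
theorem exists_poisson [StandardBorelSpace E] (e : ν univ = ⊤) :
    ∃ μ : Measure (ℕ → E), IsPoisson μ ν fun n ω => ω n := by
  have : Nonempty E := by
    by_contra! k
    simp [Measure.eq_zero_of_isEmpty ν] at e
  obtain ⟨P, h⟩ := exists_ppp ν
  have := h.prob
  have := Measure.isProbabilityMeasure_map (μ := P) meas_cp.aemeasurable
  refine ⟨P.map cp, poisson_of_ppp (fun n => measurable_pi_apply n) ?_⟩
  rw [Measure.map_map (by exact meas_all) meas_cp]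
  exact h.cp e

end Vale.Agent.P155S.Poi
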