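import Vale.Agent.P155S.PoiD

/-!
# P155S: clusters of Poisson point processes
-/

noncomputable section

open MeasureTheory ProbabilityTheory Set Filter Topology Relation
open scoped ENNReal NNReal Classical

namespace Vale.Agent.P155S.Poi

variable {E : Type*} {r : E → E → Prop} {A : Set E} {w w' : Cf E} {x y : E}

/-- all `x` which are joined to `A` by a chain of points of `w` (`x` itself need not be one) -/
def Hc (r : E → E → Prop) (A : Set E) (w : Cf E) : Set E :=
  {x | ∃ a ∈ A, ReflTransGen (fun y z => y ∈ pts w ∧ r y z) a x}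

theorem sub_Hc : A ⊆ Hc r A w := fun a ha => ⟨a, ha, .refl⟩

theorem Hc_step (h : x ∈ Hc r A w) (hx : x ∈ pts w) (k : r x y) : y ∈ Hc r A w :=
  h.imp fun _ ha => ⟨ha.1, ha.2.tail ⟨hx, k⟩⟩

theorem Hc_ind {T : Set E} (h0 : A ⊆ T) (h1 : ∀ x ∈ T, x ∈ pts w → ∀ y, r x y → y ∈ T) :
    Hc r A w ⊆ T := by
  rintro x ⟨a, ha, h⟩
  induction h with
  | refl => exact h0 ha
  | tail _ k ih => exact h1 _ ih k.1 _ k.2

theorem Hc_mono {A' : Set E} (h : A ⊆ A') (k : pts w ⊆ pts w') : Hc r A w ⊆ Hc r A' w' :=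
  Hc_ind (h.trans sub_Hc) fun _ hx hp _ => Hc_step hx (k hp)

theorem Hc_congr (e : pts w ∩ Hc r A w = pts w' ∩ Hc r A w) : Hc r A w' = Hc r A w :=
  (Hc_ind sub_Hc fun _ hx hp _ => Hc_step hx (e.ge ⟨hp, hx⟩).1).antisymm fun _ hx =>
    (Hc_ind (T := Hc r A w ∩ Hc r A w') (subset_inter sub_Hc sub_Hc) (fun _ hx hp _ k =>
      ⟨Hc_step hx.1 hp k, Hc_step hx.2 (e.le ⟨hp, hx.1⟩).1 k⟩) hx).2

theorem Hc_chain (h : x ∈ pts w ∩ Hc r A w) (k : ReflTransGen (fun a b => b ∈ pts w ∧ r a b) x y) :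
    y ∈ pts w ∩ Hc r A w := by
  induction k with
  | refl => exact h
  | tail _ k ih => exact ⟨k.1, Hc_step ih.2 ih.1 k.2⟩

/-- the points in `Hc` form the clusters of the points in `A` -/
theorem mem_Hc : x ∈ pts w ∩ Hc r A w ↔
    ∃ a ∈ pts w ∩ A, ReflTransGen (fun a b => b ∈ pts w ∧ r a b) a x := by
  refine ⟨fun h => Hc_ind (T := {x | x ∈ pts w → ∃ a ∈ pts w ∩ A,
    ReflTransGen (fun a b => b ∈ pts w ∧ r a b) a x}) (fun a ha hp => ⟨a, ⟨hp, ha⟩, .refl⟩)
    (fun x hx hp y k hy => (hx hp).imp fun a ha => ⟨ha.1, ha.2.tail ⟨hy, k⟩⟩) h.2 h.1, ?_⟩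
  rintro ⟨a, ha, k⟩
  exact Hc_chain ⟨ha.1, sub_Hc ha.2⟩ k

theorem Hc_eq : Hc r A w = A ∪ {y | ∃ x ∈ pts w ∩ Hc r A w, r x y} :=
  have s : A ∪ {y | ∃ x ∈ pts w ∩ Hc r A w, r x y} ⊆ Hc r A w :=
    union_subset sub_Hc fun _ ⟨_, h, k⟩ => Hc_step h.2 h.1 k
  (Hc_ind subset_union_left fun x hx hp _ k => Or.inr (Exists.intro x ⟨⟨hp, s hx⟩, k⟩)).antisymm s

/-- chains of bounded length -/
def Hn (r : E → E → Prop) (A : Set E) (w : Cf E) : ℕ → Set E
  | 0 => A
  | n + 1 => {y | ∃ i, (w i).2 ∧ (w i).1 ∈ Hn r A w n ∧ r (w i).1 y}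

theorem Hc_eq_iUnion : Hc r A w = ⋃ n, Hn r A w n := by
  refine (Hc_ind (subset_iUnion (Hn r A w) 0) ?_).antisymm (iUnion_subset fun n => ?_)
  · rintro _ ⟨_, ⟨n, rfl⟩, hn⟩ ⟨i, hi, rfl⟩ y k
    exact mem_iUnion.2 ⟨n + 1, i, hi, hn, k⟩
  · induction n with
    | zero => exact sub_Hc
    | succ n ih => exact fun y ⟨i, hi, hn, k⟩ => Hc_step (ih hn) ⟨i, hi, rfl⟩ k

variable [MeasurableSpace E] {ν : Measure E} {P : Measure (Cf E)} {H : Cf E → Set E}

theorem meas_Hc {X : Type*} [MeasurableSpace X] {ξ : X → Cf E} {A : X → Set E} (hξ : Measurable ξ)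
    (hA : MeasurableSet {p : X × E | p.2 ∈ A p.1}) (hr : MeasurableSet {p : E × E | r p.1 p.2}) :
    MeasurableSet {p : X × E | p.2 ∈ Hc r (A p.1) (ξ p.1)} := by
  simp only [Hc_eq_iUnion, mem_iUnion, ofPred_exists]
  refine .iUnion fun n => ?_
  induction n with
  | zero => exact hA
  | succ n ih =>
    simp only [Hn, ofPred_exists, mem_iUnion, mem_ofPred_eq]
    have m := fun i => meas_pt (hξ.comp (measurable_fst (β := E))) i
    exact .iUnion fun i => (meas_al (hξ.comp measurable_fst) i).inter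
      ((measurable_fst.prodMk (m i) ih).inter ((m i).prodMk measurable_snd hr))

variable [MeasurableSingletonClass E]

theorem pts_inter {B : Set E} (hB : MeasurableSet B)
    (e : (N w).restrict B = (N w').restrict B) : pts w ∩ B = pts w' ∩ B := by
  ext x
  rw [← pts_res, ← pts_res, mem_pts, mem_pts, N_res hB, N_res hB, e]

theorem pts_congr (e : N w = N w') : pts w = pts w' := Set.ext fun _ => by rw [mem_pts, mem_pts, e]

theorem inv_pts {β : Type*} (G : Set E → β) : Inv fun w : Cf E => G (pts w) :=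
  fun _ _ e => congrArg G (pts_congr e)

theorem St.of_pts {β : Type*} {F : Cf E → β} (m : ∀ w, MeasurableSet (H w))
    (h : ∀ w w', pts w ∩ H w = pts w' ∩ H w → F w' = F w) : St H F :=
  fun w w' e => h w w' (pts_inter (m w) e)

/-- the clusters of a stopping set form a stopping set -/
theorem Stop.hc (h : Stop H) (hr : MeasurableSet {p : E × E | r p.1 p.2}) :
    Stop fun w => Hc r (H w) w :=
  have m := meas_Hc measurable_id h.meas hr
  ⟨m, fun w w' e => by
    rw [h.st.mono h.ms (fun _ => sub_Hc) w w' e]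
    exact Hc_congr (pts_inter (measurable_prodMk_left m) e)⟩

theorem stop_Hc (hA : MeasurableSet A) (hr : MeasurableSet {p : E × E | r p.1 p.2}) :
    Stop (Hc r A) := (stop_const hA).hc hr

theorem Stop.st_pts (h : Stop H) {β : Type*} (G : Set E → β) : St H fun w => G (pts w ∩ H w) :=
  fun w w' e => by simp only [h.st w w' e, pts_inter (h.ms w) e]

/-- adding a point -/
def ins (x : E) (w : Cf E) : Cf E := fun n => Nat.casesOn n (x, True) w

omit [MeasurableSingletonClass E]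

theorem N_ins (x : E) (w : Cf E) : N (ins x w) = .dirac x + N w := by
  ext B hB
  rw [Measure.add_apply, N_apply _ hB, N_apply _ hB, tsum_eq_zero_add' ENNReal.summable]
  simp [ins, hB, indicator_apply]
  rfl

omit [MeasurableSpace E] in
theorem pts_ins (x : E) (w : Cf E) : pts (ins x w) = insert x (pts w) := by
  ext y
  rw [pts, mem_ofPred_eq, ← Nat.or_exists_add_one]
  simp [pts, ins, eq_comm]

theorem meas_ins : Measurable fun p : E × Cf E => ins p.1 p.2 :=
  measurable_pi_lambda _ fun n => by cases n <;> simp only [ins] <;> fun_prop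

end Vale.Agent.P155S.Poi
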