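import Mathlib

/-!
# P155S: Poisson point processes, definitions and constructions
-/

noncomputable section

open MeasureTheory ProbabilityTheory Set Filter Topology
open scoped ENNReal NNReal Classical

namespace Vale.Agent.P155S.Poi

/-- `exp (-t)` -/
def ex (t : ℝ≥0∞) : ℝ≥0∞ := EReal.exp (-(t : EReal))

@[simp] theorem ex_zero : ex 0 = 1 := by simp [ex]

@[simp] theorem ex_top : ex ⊤ = 0 := by simp [ex]

theorem ex_add (s t : ℝ≥0∞) : ex (s + t) = ex s * ex t := by
  rw [ex, ex, ex, ← EReal.exp_add, EReal.coe_ennreal_add,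
    EReal.neg_add (.inl (EReal.coe_ennreal_ne_bot _)) (.inr (EReal.coe_ennreal_ne_bot _)),
    sub_eq_add_neg]

theorem ex_anti : StrictAnti ex := fun _ _ h =>
  EReal.exp_strictMono (EReal.neg_lt_neg_iff.2 (EReal.coe_ennreal_lt_coe_ennreal_iff.2 h))

theorem ex_le (t : ℝ≥0∞) : ex t ≤ 1 := ex_zero ▸ ex_anti.antitone bot_le

theorem ex_ne_top (t : ℝ≥0∞) : ex t ≠ ⊤ := ((ex_le t).trans_lt ENNReal.one_lt_top).ne

@[simp] theorem ex_eq_zero {t : ℝ≥0∞} : ex t = 0 ↔ t = ⊤ := ex_top ▸ ex_anti.injective.eq_iff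

@[simp] theorem ex_eq_one {t : ℝ≥0∞} : ex t = 1 ↔ t = 0 := ex_zero ▸ ex_anti.injective.eq_iff

@[fun_prop] theorem cont_ex : Continuous ex :=
  ENNReal.continuous_exp.comp continuous_coe_ennreal_ereal.neg

@[fun_prop] theorem meas_ex : Measurable ex := cont_ex.measurable

theorem ex_coe (r : ℝ≥0) : ex r = ENNReal.ofReal (Real.exp (-r)) := rfl

theorem ex_ofReal {r : ℝ} (h : 0 ≤ r) : ex (ENNReal.ofReal r) = ENNReal.ofReal (Real.exp (-r)) := by
  lift r to ℝ≥0 using h
  rw [ENNReal.ofReal_coe_nnreal, ex_coe]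

theorem ex_sum {ι : Type*} (s : Finset ι) (a : ι → ℝ≥0∞) : ex (∑ i ∈ s, a i) = ∏ i ∈ s, ex (a i) := by
  induction s using Finset.induction_on with
  | empty => simp
  | insert i s hi ih => rw [Finset.sum_insert hi, Finset.prod_insert hi, ex_add, ih]

theorem ex_nat (n : ℕ) (a : ℝ≥0∞) : ex (n * a) = ex a ^ n := by
  simpa using ex_sum (Finset.range n) fun _ => a

/-- the inverse of `ex` -/
def lg (s : ℝ≥0∞) : ℝ≥0∞ := (-ENNReal.log s).toENNReal

theorem ex_lg {s : ℝ≥0∞} (h : s ≤ 1) : ex (lg s) = s := by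
  rw [ex, lg, EReal.coe_toENNReal (by simpa using h), neg_neg, ENNReal.exp_log]

@[fun_prop] theorem meas_lg : Measurable lg :=
  EReal.continuous_toENNReal.measurable.comp ENNReal.measurable_log.neg

theorem one_sub_ex (t : ℝ≥0∞) : 1 - ex t ≤ t := by
  cases t with
  | top => exact le_top
  | coe r =>
    rw [ex_coe, tsub_le_iff_right, ← ENNReal.ofReal_coe_nnreal, ← ENNReal.ofReal_add r.coe_nonneg
      (Real.exp_pos _).le, ← ENNReal.ofReal_one]
    exact ENNReal.ofReal_le_ofReal (by linarith [Real.add_one_le_exp (-(r : ℝ))])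

theorem lim_ex {X : Type*} [MeasurableSpace X] (μ : Measure X) [IsFiniteMeasure μ]
    {F : ℕ → X → ℝ≥0∞} {G : X → ℝ≥0∞} (hF : ∀ n, Measurable (F n))
    (h : ∀ x, Tendsto (fun n => F n x) atTop (𝓝 (G x))) :
    Tendsto (fun n => ∫⁻ x, ex (F n x) ∂μ) atTop (𝓝 (∫⁻ x, ex (G x) ∂μ)) :=
  tendsto_lintegral_of_dominated_convergence (fun _ => 1) (fun n => meas_ex.comp (hF n))
    (fun _ => .of_forall fun _ => ex_le _) (by simp)
    (.of_forall fun x => (cont_ex.tendsto _).comp (h x))

/-- Laplace transforms of sums of independent variables -/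
theorem ex_pi {X : ℕ → Type*} [∀ i, MeasurableSpace (X i)] (μ : ∀ i, Measure (X i))
    [∀ i, IsProbabilityMeasure (μ i)] {f : ∀ i, X i → ℝ≥0∞} (hf : ∀ i, Measurable (f i))
    {a : ℕ → ℝ≥0∞} (h : ∀ i, ∫⁻ x, ex (f i x) ∂μ i = ex (a i)) :
    ∫⁻ w, ex (∑' i, f i (w i)) ∂Measure.infinitePi μ = ex (∑' i, a i) := by
  have m : ∀ i, Measurable fun w : ∀ i, X i => f i (w i) := fun i =>
    (hf i).comp (measurable_pi_apply i)
  refine tendsto_nhds_unique (lim_ex _ (fun n => Finset.measurable_sum (Finset.range n) fun i _ => m i)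
    fun w => ENNReal.tendsto_nat_tsum _) (((cont_ex.tendsto _).comp
      (ENNReal.tendsto_nat_tsum a)).congr fun n => ?_)
  simp only [Function.comp, ex_sum]
  rw [lintegral_prod_eq_prod_lintegral_of_indepFun _ _
    (iIndepFun_infinitePi (X := fun i x => ex (f i x)) fun i => meas_ex.comp (hf i))
    fun i => meas_ex.comp (m i)]
  exact Finset.prod_congr rfl fun i _ => (h i).symm.trans
    ((measurePreserving_eval_infinitePi μ i).lintegral_comp (meas_ex.comp (hf i))).symm

theorem ex_pois (r : ℝ≥0) {q : ℝ≥0∞} (hq : q ≤ 1) :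
    ∫⁻ k, q ^ k ∂poissonMeasure r = ex ((1 - q) * r) := by
  lift q to ℝ≥0 using (hq.trans_lt ENNReal.one_lt_top).ne
  have h := (NormedSpace.expSeries_div_hasSum_exp (r * q : ℝ)).mul_left (Real.exp (-r))
  rw [← Real.exp_eq_exp_ℝ] at h
  rw [lintegral_countable', ← ENNReal.coe_one, ← ENNReal.coe_sub, ← ENNReal.coe_mul, ex_coe,
    NNReal.coe_mul, NNReal.coe_sub (by exact_mod_cast hq), NNReal.coe_one,
    show -((1 - (q : ℝ)) * r) = -r + r * q by ring, Real.exp_add,
    ← h.tsum_eq, ENNReal.ofReal_tsum_of_nonneg (fun _ => by positivity) h.summable]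
  refine tsum_congr fun k => ?_
  rw [poissonMeasure_singleton, ← ENNReal.coe_pow, ← ENNReal.ofReal_coe_nnreal,
    ← ENNReal.ofReal_mul (by positivity)]
  congr 1
  push_cast
  ring

/-- configurations: sequences of points with a flag that says whether the point is present -/
abbrev Cf (E : Type*) := ℕ → E × Prop

variable {E E' : Type*} [MeasurableSpace E] [MeasurableSpace E'] {ν ν' : Measure E}
  {P P' : Measure (Cf E)} {B S : Set E} {f : E → ℝ≥0∞}

/-- the counting measure -/
def N (w : Cf E) : Measure E := Measure.sum fun i => if (w i).2 then .dirac (w i).1 else 0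

/-- the points -/
def pts (w : Cf E) : Set E := {x | ∃ i, (w i).2 ∧ (w i).1 = x}

/-- the points in `B` -/
def res (B : Set E) (w : Cf E) : Cf E := fun i => ((w i).1, (w i).2 ∧ (w i).1 ∈ B)

/-- images -/
def mp (g : E → E') (w : Cf E) : Cf E' := fun i => (g (w i).1, (w i).2)

/-- superposition of countably many configurations -/
def mer (w : ℕ → Cf E) : Cf E := fun n => w n.unpair.1 n.unpair.2

/-- superposition of two configurations -/
def mer2 (w : Cf E × Cf E) : Cf E := fun n => if n % 2 = 0 then w.1 (n / 2) else w.2 (n / 2)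

/-- marks -/
def zip (w : Cf E × (ℕ → E')) : Cf (E × E') := fun i => (((w.1 i).1, w.2 i), (w.1 i).2)

theorem lint_N (w : Cf E) (hf : Measurable f) :
    ∫⁻ x, f x ∂N w = ∑' i, if (w i).2 then f (w i).1 else 0 := by
  rw [N, lintegral_sum_measure]
  exact tsum_congr fun i => by split_ifs <;> simp [lintegral_dirac' _ hf]

theorem N_apply (w : Cf E) (hB : MeasurableSet B) :
    N w B = ∑' i, if (w i).2 ∧ (w i).1 ∈ B then 1 else 0 := by
  rw [← lintegral_indicator_one hB, lint_N w (measurable_one.indicator hB)]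
  exact tsum_congr fun i => by by_cases h : (w i).2 <;> simp [h, indicator]

theorem N_eq_zero {w : Cf E} (hB : MeasurableSet B) : N w B = 0 ↔ Disjoint (pts w) B := by
  simp [N_apply w hB, disjoint_left, pts]

theorem N_res (hB : MeasurableSet B) (w : Cf E) : N (res B w) = (N w).restrict B :=
  Measure.ext fun S hS => by
    rw [Measure.restrict_apply hS, N_apply _ hS, N_apply _ (hS.inter hB)]
    simp only [res, mem_inter_iff, and_assoc, and_comm]

theorem N_mp {g : E → E'} (hg : Measurable g) (w : Cf E) : N (mp g w) = (N w).map g :=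
  Measure.ext fun S hS => by
    rw [Measure.map_apply hg hS, N_apply _ hS, N_apply _ (hg hS)]
    rfl

theorem N_mer (w : ℕ → Cf E) : N (mer w) = Measure.sum fun j => N (w j) :=
  Measure.ext fun S hS => by
    simp only [Measure.sum_apply _ hS, N_apply _ hS, ← ENNReal.tsum_prod]
    exact Nat.pairEquiv.symm.tsum_eq fun p : ℕ × ℕ =>
      if (w p.1 p.2).2 ∧ (w p.1 p.2).1 ∈ S then (1 : ℝ≥0∞) else 0

theorem N_mer2 (w : Cf E × Cf E) : N (mer2 w) = N w.1 + N w.2 :=
  Measure.ext fun S hS => by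
    simp only [Measure.add_apply, N_apply _ hS]
    rw [← tsum_even_add_odd ENNReal.summable ENNReal.summable]
    simp [mer2, Nat.mul_add_div]

omit [MeasurableSpace E] in
theorem pts_res (B : Set E) (w : Cf E) : pts (res B w) = pts w ∩ B :=
  Set.ext fun _ => ⟨fun ⟨i, h, e⟩ => ⟨⟨i, h.1, e⟩, e ▸ h.2⟩, fun ⟨⟨i, h, e⟩, k⟩ => ⟨i, ⟨h, e ▸ k⟩, e⟩⟩

theorem mem_pts [MeasurableSingletonClass E] {w : Cf E} {x : E} : x ∈ pts w ↔ N w {x} ≠ 0 := by
  simp [N_eq_zero]

section meas

variable {X : Type*} [MeasurableSpace X] {ξ : X → Cf E} {H : X → Set E}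

theorem meas_pt (hξ : Measurable ξ) (i : ℕ) : Measurable fun a => (ξ a i).1 :=
  ((measurable_pi_apply i).comp hξ).fst

theorem meas_al (hξ : Measurable ξ) (i : ℕ) : MeasurableSet {a | (ξ a i).2} :=
  measurableSet_setOfPred.2 ((measurable_pi_apply i).comp hξ).snd

theorem meas_lint (hξ : Measurable ξ) {F : X → E → ℝ≥0∞}
    (hF : Measurable fun p : X × E => F p.1 p.2) : Measurable fun a => ∫⁻ x, F a x ∂N (ξ a) := by
  simp only [fun a => lint_N (ξ a) (f := F a) (hF.comp measurable_prodMk_left)]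
  exact Measurable.tsum fun i =>
    .ite (meas_al hξ i) (hF.comp (measurable_id.prodMk (meas_pt hξ i))) measurable_const

theorem meas_N (hξ : Measurable ξ) (hH : MeasurableSet {p : X × E | p.2 ∈ H p.1}) :
    Measurable fun a => N (ξ a) (H a) := by
  simp only [fun a => (lintegral_indicator_one (μ := N (ξ a)) (s := H a)
    (measurable_prodMk_left hH)).symm]
  exact meas_lint hξ (measurable_one.indicator hH)

theorem meas_res (hξ : Measurable ξ) (hH : MeasurableSet {p : X × E | p.2 ∈ H p.1}) :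
    Measurable fun a => res (H a) (ξ a) :=
  measurable_pi_lambda _ fun i => (meas_pt hξ i).prodMk (measurableSet_setOfPred.1
    ((meas_al hξ i).inter (measurable_id.prodMk (meas_pt hξ i) hH)))

end meas

theorem meas_L (hf : Measurable f) : Measurable fun w : Cf E => ∫⁻ x, f x ∂N w :=
  meas_lint measurable_id (hf.comp measurable_snd)

theorem meas_N' (hB : MeasurableSet B) : Measurable fun w : Cf E => N w B :=
  meas_N measurable_id (measurable_snd hB)

theorem meas_res' (hB : MeasurableSet B) : Measurable (res B) :=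
  meas_res measurable_id (measurable_snd hB)

theorem meas_mp {g : E → E'} (hg : Measurable g) : Measurable (mp g) :=
  measurable_pi_lambda _ fun i => (hg.comp (meas_pt measurable_id i)).prodMk
    (measurable_pi_apply i).snd

theorem meas_mer : Measurable (mer (E := E)) :=
  measurable_pi_lambda _ fun _ => (measurable_pi_apply _).comp (measurable_pi_apply _)

theorem meas_mer2 : Measurable (mer2 (E := E)) := measurable_pi_lambda _ fun n => by
  unfold mer2
  split_ifs <;> fun_prop

theorem meas_zip : Measurable (zip (E := E) (E' := E')) := by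
  unfold zip
  fun_prop

/-- Poisson point processes with intensity `ν` -/
structure IsPPP (ν : Measure E) (P : Measure (Cf E)) : Prop where
  prob : IsProbabilityMeasure P
  lap : ∀ f, Measurable f → ∫⁻ w, ex (∫⁻ x, f x ∂N w) ∂P = ex (∫⁻ x, 1 - ex (f x) ∂ν)

theorem IsPPP.of_map {X : Type*} [MeasurableSpace X] {μ : Measure X} [IsProbabilityMeasure μ]
    {ξ : X → Cf E} (hξ : Measurable ξ) (h : ∀ f, Measurable f →
      ∫⁻ a, ex (∫⁻ x, f x ∂N (ξ a)) ∂μ = ex (∫⁻ x, 1 - ex (f x) ∂ν)) : IsPPP ν (μ.map ξ) :=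
  ⟨Measure.isProbabilityMeasure_map hξ.aemeasurable, fun f hf =>
    (lintegral_map (meas_ex.comp (meas_L hf)) hξ).trans (h f hf)⟩

theorem IsPPP.res (h : IsPPP ν P) (hB : MeasurableSet B) : IsPPP (ν.restrict B) (P.map (res B)) :=
  have := h.prob
  .of_map (meas_res' hB) fun f hf => by
    simp only [N_res hB, ← lintegral_indicator hB]
    rw [h.lap _ (hf.indicator hB)]
    congr 2
    funext x
    by_cases k : x ∈ B <;> simp [k]

theorem IsPPP.mp (h : IsPPP ν P) {g : E → E'} (hg : Measurable g) :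
    IsPPP (ν.map g) (P.map (mp g)) :=
  have := h.prob
  .of_map (meas_mp hg) fun f hf => by
    simp only [N_mp hg, lintegral_map hf hg]
    rw [h.lap (fun x => f (g x)) (hf.comp hg), lintegral_map (by fun_prop) hg]

theorem isPPP_mer {ν : ℕ → Measure E} {P : ℕ → Measure (Cf E)} (h : ∀ j, IsPPP (ν j) (P j)) :
    IsPPP (Measure.sum ν) ((Measure.infinitePi P).map mer) :=
  have := fun j => (h j).prob
  .of_map meas_mer fun f hf => by
    simp only [N_mer, lintegral_sum_measure]
    exact ex_pi P (fun _ => meas_L hf) fun j => (h j).lap f hf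

theorem IsPPP.mer2 (h : IsPPP ν P) (h' : IsPPP ν' P') : IsPPP (ν + ν') ((P.prod P').map mer2) :=
  have := h.prob
  have := h'.prob
  .of_map meas_mer2 fun f hf => by
    have m := meas_ex.comp (meas_L hf)
    simp only [N_mer2, lintegral_add_measure, ex_add]
    rw [← h.lap f hf, ← h'.lap f hf]
    exact lintegral_prod_mul m.aemeasurable m.aemeasurable

theorem ex_zip (U : Measure E') [IsProbabilityMeasure U] {g : E × E' → ℝ≥0∞} (hg : Measurable g)
    (hf : Measurable f) (e : ∀ x, ∫⁻ u, ex (g (x, u)) ∂U = ex (f x)) (w : Cf E) :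
    ∫⁻ u, ex (∫⁻ x, g x ∂N (zip (w, u))) ∂Measure.infinitePi (fun _ : ℕ => U) =
      ex (∫⁻ x, f x ∂N w) := by
  simp only [lint_N _ hg, lint_N _ hf]
  exact ex_pi (fun _ => U) (f := fun i u => if (w i).2 then g ((w i).1, u) else 0)
    (fun i => by split_ifs <;> fun_prop) fun i => by split_ifs <;> simp [e]

theorem IsPPP.zip (h : IsPPP ν P) (U : Measure E') [IsProbabilityMeasure U] :
    IsPPP (ν.prod U) ((P.prod (Measure.infinitePi fun _ => U)).map zip) :=
  have := h.prob
  .of_map meas_zip fun g hg => by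
    have m : Measurable fun x => ∫⁻ u, ex (g (x, u)) ∂U := (meas_ex.comp hg).lintegral_prod_right'
    have l : ∀ x, ∫⁻ u, ex (g (x, u)) ∂U ≤ 1 := fun x =>
      (lintegral_mono fun _ => ex_le _).trans (by simp)
    have m' : Measurable fun x => lg (∫⁻ u, ex (g (x, u)) ∂U) := meas_lg.comp m
    rw [lintegral_prod (fun a => ex (∫⁻ x, g x ∂N (Poi.zip a)))
      (meas_ex.comp ((meas_L hg).comp meas_zip)).aemeasurable, lintegral_prod _ (by fun_prop)]
    simp only [ex_zip U hg m' fun x => (ex_lg (l x)).symm]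
    rw [h.lap _ m']
    congr 2
    funext x
    rw [ex_lg (l x), lintegral_sub (by fun_prop)
      ((l x).trans_lt ENNReal.one_lt_top).ne (.of_forall fun _ => ex_le _)]
    simp

theorem exists_fin [Nonempty E] (ν : Measure E) [IsFiniteMeasure ν] : ∃ P, IsPPP ν P := by
  let μ : ProbabilityMeasure E := FiniteMeasure.normalize ⟨ν, inferInstance⟩
  obtain ⟨r, e⟩ : ∃ r : ℝ≥0, ν = r • (μ : Measure E) :=
    ⟨_, congrArg Subtype.val (FiniteMeasure.self_eq_mass_smul_normalize ⟨ν, inferInstance⟩)⟩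
  refine ⟨_, .of_map (μ := (poissonMeasure r).prod (Measure.infinitePi fun _ : ℕ => (μ : Measure E)))
    (ξ := fun a i => (a.2 i, i < a.1)) (by fun_prop) fun f hf => ?_⟩
  have l : ∫⁻ x, ex (f x) ∂μ ≤ 1 := (lintegral_mono fun _ => ex_le _).trans (by simp)
  refine (lintegral_prod _ (meas_ex.comp ((meas_L hf).comp (by fun_prop))).aemeasurable).trans ?_
  rw [e, lintegral_smul_measure, lintegral_sub (by fun_prop) (l.trans_lt ENNReal.one_lt_top).ne
      (.of_forall fun _ => ex_le _), lintegral_one, measure_univ, ENNReal.smul_def, smul_eq_mul,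
    mul_comm, ← ex_pois r l]
  refine lintegral_congr fun k => ?_
  simp only [lint_N _ hf, Function.comp]
  rw [ex_pi (fun _ => (μ : Measure E)) (f := fun i x => if i < k then f x else 0)
    (fun i => by split_ifs <;> fun_prop) (a := fun i => if i < k then lg (∫⁻ x, ex (f x) ∂μ) else 0)
    fun i => by split_ifs <;> simp [ex_lg l], tsum_eq_sum (s := Finset.range k) fun i hi => by
      simp [Finset.mem_range.not.1 hi], Finset.sum_congr rfl fun i hi =>
        if_pos (Finset.mem_range.1 hi), Finset.sum_const, Finset.card_range, nsmul_eq_mul, ex_nat,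
    ex_lg l]

/-- **existence** -/
theorem exists_ppp [Nonempty E] (ν : Measure E) [SFinite ν] : ∃ P, IsPPP ν P := by
  choose P h using fun n => exists_fin (sfiniteSeq ν n)
  exact ⟨_, sum_sfiniteSeq ν ▸ isPPP_mer h⟩

theorem IsPPP.lap_ind (h : IsPPP ν P) (hB : MeasurableSet B) (t : ℝ≥0∞) :
    ∫⁻ w, ex (t * N w B) ∂P = ex ((1 - ex t) * ν B) := by
  simp only [← lintegral_indicator_const hB]
  rw [h.lap _ (measurable_const.indicator hB)]
  congr 2
  funext x
  by_cases k : x ∈ B <;> simp [k]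

theorem ex_top_mul (t : ℝ≥0∞) : ex (⊤ * t) = if t = 0 then 1 else 0 := by
  split_ifs with h <;> simp [h]

/-- void probabilities -/
theorem IsPPP.void (h : IsPPP ν P) (hB : MeasurableSet B) : P {w | N w B = 0} = ex (ν B) := by
  have := h.lap_ind hB ⊤
  simp only [ex_top_mul, ex_top, tsub_zero, one_mul] at this
  rw [← this, ← lintegral_indicator_one (s := {w | N w B = 0})
    (meas_N' hB (measurableSet_singleton 0))]
  exact lintegral_congr fun w => by by_cases k : N w B = 0 <;> simp [k]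

theorem IsPPP.null (h : IsPPP ν P) (hB : MeasurableSet B) (e : ν B = 0) : ∀ᵐ w ∂P, N w B = 0 :=
  have := h.prob
  (mem_ae_iff_prob_eq_one (meas_N' hB (measurableSet_singleton 0))).2
    ((h.void hB).trans (by simp [e]))

theorem IsPPP.hit (h : IsPPP ν P) (hB : MeasurableSet B) : P {w | N w B ≠ 0} ≤ ν B := by
  have := h.prob
  exact (prob_compl_eq_one_sub (meas_N' hB (measurableSet_singleton 0))).trans_le
    ((congrArg (1 - ·) (h.void hB)).trans_le (one_sub_ex _))

theorem IsPPP.fin (h : IsPPP ν P) (hB : MeasurableSet B) (e : ν B ≠ ⊤) : ∀ᵐ w ∂P, N w B ≠ ⊤ := by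
  have := h.prob
  have m := (meas_N' hB (measurableSet_singleton ⊤)).compl
  refine (mem_ae_iff_prob_eq_one m).2 (prob_le_one.antisymm ?_)
  have c : Tendsto (fun t => ex ((1 - ex t) * ν B)) (𝓝[>] 0) (𝓝 1) := by
    simpa [Function.comp_def] using (cont_ex.comp ((ENNReal.continuous_mul_const e).comp
      ((ENNReal.continuous_sub_left ENNReal.one_ne_top).comp cont_ex))).continuousWithinAt.tendsto
        (x := 0) (s := Ioi 0)
  refine le_of_tendsto c (eventually_mem_nhdsWithin.mono fun t (ht : 0 < t) => ?_)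
  rw [← h.lap_ind hB, ← lintegral_indicator_one m]
  refine lintegral_mono fun w => ?_
  by_cases k : N w B = ⊤ <;> simp [k, ht.ne', ex_le]

end Vale.Agent.P155S.Poi
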