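import Vale.Agent.P155S.FubA
import Vale.Agent.P155S.RegC
import Vale.Agent.P155B.Sym
import Vale.Agent.P155I.Sk
import Vale.Agent.P155H.Join

/-!
# P155: the clusters which meet a seed, as a stopping set
-/

set_option linter.all false

noncomputable section

namespace Vale.Agent.P155S.Fub

open MeasureTheory Set Filter Topology Metric Vale.Agent.P155S.Poi Vale.Agent.P155 Vale.Agent.P155.BL
  Vale.Agent.P155.Soup Relation
open scoped NNReal ENNReal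

variable {L L' : Set CL} {V Q R K : Set ℂ} {γ : CL}

/-- the loops which meet `K` -/
def Mt (K : Set ℂ) : Set CL := {γ | (range γ ∩ K).Nonempty}

/-- the loops in `V` which meet `Q` or a cluster which meets `Q` -/
def HL (L : Set CL) (V Q : Set ℂ) : Set CL := LV V ∩ Mt (Q ∪ Us L V Q)

theorem mt_closed (hK : IsClosed K) : MeasurableSet (Mt K) := by
  convert (measurableSet_range_open (X := Q1.S1) hK.isOpen_compl).compl using 1
  ext γ
  simp [Mt, subset_compl_iff_disjoint_right, not_disjoint_iff_nonempty_inter]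

theorem lv_meas (hV : IsOpen V) : MeasurableSet (LV V) := measurableSet_range_open hV

theorem mem_us {z : ℂ} : z ∈ Us L V Q ↔ ∃ a ∈ L ∩ LV V, a ∈ Mt Q ∧ ∃ c, ReflTransGen
    (fun a b : CL => b ∈ L ∩ LV V ∧ (range a ∩ range b).Nonempty) a c ∧ z ∈ range c := by
  simp only [Us, cluster, mem_iUnion, mem_setOf_eq, exists_prop, and_assoc, Mt]

theorem ch_mem {a c : CL} (ha : a ∈ L) (h : ReflTransGen
    (fun a b : CL => b ∈ L ∧ (range a ∩ range b).Nonempty) a c) : c ∈ L := by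
  cases h with
  | refl => exact ha
  | tail _ h => exact h.1

theorem mem_us' {z : ℂ} : z ∈ Us L V Q ↔ ∃ c ∈ L ∩ HL L V Q, z ∈ range c := by
  refine ⟨fun h => ?_, fun ⟨c, ⟨h1, h2, y, h3, h4⟩, h5⟩ => ?_⟩
  · obtain ⟨a, h1, h2, c, h3, h4⟩ := mem_us.1 h
    exact ⟨c, ⟨(ch_mem h1 h3).1, (ch_mem h1 h3).2, z, h4, .inr h⟩, h4⟩
  · rcases h4 with h4 | h4
    · exact mem_us.2 ⟨c, ⟨h1, h2⟩, ⟨y, h3, h4⟩, c, .refl, h5⟩
    · obtain ⟨a, b1, b2, c', b3, b4⟩ := mem_us.1 h4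
      exact mem_us.2 ⟨a, b1, b2, c, b3.tail ⟨⟨h1, h2⟩, y, b4, h3⟩, h5⟩

theorem us_sub : Us L V Q ⊆ V := fun _ h => let ⟨_, h1, h2⟩ := mem_us'.1 h; h1.2.1 h2

theorem us_mono (h : L ⊆ L') : Us L V Q ⊆ Us L' V Q := fun _ hz =>
  let ⟨a, h1, h2, c, h3, h4⟩ := mem_us.1 hz
  mem_us.2 ⟨a, ⟨h h1.1, h1.2⟩, h2, c,
    ReflTransGen.mono (fun _ _ e => ⟨⟨h e.1.1, e.1.2⟩, e.2⟩) _ _ h3, h4⟩

theorem us_sub_of (h : L ∩ HL L V Q ⊆ L') : Us L V Q ⊆ Us L' V Q := fun _ hz => by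
  obtain ⟨a, h1, h2, c, h3, h4⟩ := mem_us.1 hz
  have k : ∀ c, ReflTransGen (fun a b : CL => b ∈ L ∩ LV V ∧ (range a ∩ range b).Nonempty) a c →
      c ∈ L' := fun c e => h ⟨(ch_mem h1 e).1, (ch_mem h1 e).2, c 0, ⟨0, rfl⟩,
        .inr (mem_us.2 ⟨a, h1, h2, c, e, 0, rfl⟩)⟩
  refine mem_us.2 ⟨a, ⟨k a .refl, h1.2⟩, h2, c, ?_, h4⟩
  clear h4
  induction h3 with
  | refl => exact .refl
  | tail e e' ih => exact ih.tail ⟨⟨k _ (e.tail e'), e'.1.2⟩, e'.2⟩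

theorem us_congr (h : L ∩ HL L V Q = L' ∩ HL L V Q) : Us L' V Q = Us L V Q := by
  refine subset_antisymm (fun z hz => ?_) (us_sub_of fun _ e => (h.subset e).1)
  obtain ⟨a, h1, h2, c, h3, h4⟩ := mem_us.1 hz
  refine mem_us'.2 ⟨c, ?_, h4⟩
  clear h4
  induction h3 with
  | refl => exact h.superset ⟨h1.1, h1.2, h2.mono (inter_subset_inter_right _ subset_union_left)⟩
  | tail e e' ih =>
    obtain ⟨y, y1, y2⟩ := e'.2
    exact h.superset ⟨e'.1.1, e'.1.2, y, y2, .inr (mem_us'.2 ⟨_, ih, y1⟩)⟩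

theorem us_exh {D : ℕ → Set CL} (hD : Monotone D) (h : L ⊆ ⋃ n, D n) {z : ℂ} (hz : z ∈ Us L V Q) :
    ∃ n, z ∈ Us (L ∩ D n) V Q := by
  obtain ⟨a, h1, h2, c, h3, h4⟩ := mem_us.1 hz
  obtain ⟨n, hn⟩ := mem_iUnion.1 (h h1.1)
  suffices ∃ m, n ≤ m ∧ ReflTransGen
      (fun a b : CL => b ∈ (L ∩ D m) ∩ LV V ∧ (range a ∩ range b).Nonempty) a c from
    this.imp fun m e => mem_us.2 ⟨a, ⟨⟨h1.1, hD e.1 hn⟩, h1.2⟩, h2, c, e.2, h4⟩
  clear h4
  induction h3 with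
  | refl => exact ⟨n, le_rfl, .refl⟩
  | tail e e' ih =>
    obtain ⟨m, a1, a2⟩ := ih
    obtain ⟨k, hk⟩ := mem_iUnion.1 (h e'.1.1)
    exact ⟨max m k, le_max_of_le_left a1, ReflTransGen.tail (ReflTransGen.mono (fun _ _ c =>
      ⟨⟨⟨c.1.1.1, hD (le_max_left _ _) c.1.1.2⟩, c.1.2⟩, c.2⟩) _ _ a2)
        ⟨⟨⟨e'.1.1, hD (le_max_right _ _) hk⟩, e'.1.2⟩, e'.2⟩⟩

theorem us_conn {A : Set ℂ} (hA : IsPreconnected (A ∪ Q)) (h0 : A.Nonempty) :
    IsPreconnected (A ∪ (Q ∪ Us L V Q)) := by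
  obtain ⟨x, hx⟩ := h0
  refine isPreconnected_of_forall x fun z hz => ?_
  rw [← union_assoc] at hz ⊢
  rcases hz with hz | hz
  · exact ⟨_, subset_union_left, .inl hx, hz, hA⟩
  obtain ⟨a, h1, h2, c, h3, h4⟩ := mem_us.1 hz
  suffices ∃ t ⊆ A ∪ Q ∪ Us L V Q, x ∈ t ∧ range c ⊆ t ∧ IsPreconnected t from
    this.imp fun t e => ⟨e.1, e.2.1, e.2.2.1 h4, e.2.2.2⟩
  clear h4
  induction h3 with
  | refl =>
    obtain ⟨y, y1, y2⟩ := h2
    exact ⟨A ∪ Q ∪ range a, union_subset_union_right _ fun y hy =>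
      mem_us.2 ⟨a, h1, ⟨_, y1, y2⟩, a, .refl, hy⟩, .inl (.inl hx), subset_union_right,
        hA.union y (.inr y2) y1 (isPreconnected_range a.continuous)⟩
  | @tail b c e e' ih =>
    obtain ⟨t, t1, t2, t3, t4⟩ := ih
    obtain ⟨y, y1, y2⟩ := e'.2
    exact ⟨t ∪ range c, union_subset t1 fun y hy => .inr (mem_us.2 ⟨a, h1, h2, c, e.tail e', hy⟩),
      .inl t2, subset_union_right, t4.union y (t3 y1) y2 (isPreconnected_range c.continuous)⟩

theorem meet_closed : IsClosed {p : CL × CL | (range p.1 ∩ range p.2).Nonempty} := by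
  have := isClosedMap_fst_of_compactSpace (X := CL × CL) (Y := Q1.S1 × Q1.S1)
    {q | q.1.1 q.2.1 = q.1.2 q.2.2} (isClosed_eq (by fun_prop) (by fun_prop))
  convert this using 1
  ext p
  exact ⟨fun ⟨_, ⟨s, e⟩, t, e'⟩ => ⟨(p, s, t), e.trans e'.symm, rfl⟩,
    fun ⟨q, e, e'⟩ => e' ▸ ⟨_, ⟨q.2.1, rfl⟩, q.2.2, e.symm⟩⟩

/-- chains of length at most `k` -/
def Hk (V Q : Set ℂ) : ℕ → Set (Cf CL × CL)
  | 0 => {p | p.2 ∈ LV V ∩ Mt Q}
  | k + 1 => ⋃ i, {p | p.2 ∈ LV V ∧ (p.1 i).2 ∧ (p.1, (p.1 i).1) ∈ Hk V Q k ∧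
      (range (p.1 i).1 ∩ range p.2).Nonempty}

theorem stop_hl (hV : IsOpen V) (hQ : IsClosed Q) : Stop fun w => HL (pts w) V Q := by
  have m : ∀ k, MeasurableSet (Hk V Q k) := fun k => by
    induction k with
    | zero => exact measurable_snd ((lv_meas hV).inter (mt_closed hQ))
    | succ k ih =>
      exact .iUnion fun i => (measurable_snd (lv_meas hV)).inter ((meas_al measurable_fst i).inter
        ((measurable_fst.prodMk (meas_pt measurable_fst i) ih).inter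
          ((meas_pt measurable_fst i).prodMk measurable_snd meet_closed.measurableSet)))
  have e : {p : Cf CL × CL | p.2 ∈ HL (pts p.1) V Q} = ⋃ k, Hk V Q k := by
    refine subset_antisymm ?_ (iUnion_subset fun k => ?_)
    · rintro ⟨w, x⟩ ⟨h1, y, h2, h3 | h3⟩
      · exact mem_iUnion.2 ⟨0, h1, y, h2, h3⟩
      obtain ⟨a, b1, b2, c, b3, b4⟩ := mem_us.1 h3
      have key : ∀ c x, c ∈ pts w → x ∈ LV V → (range c ∩ range x).Nonempty →
          (∃ k, (w, c) ∈ Hk V Q k) → ∃ k, (w, x) ∈ Hk V Q k := by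
        rintro _ x ⟨i, c1, rfl⟩ c2 c3 ⟨k, c4⟩
        exact ⟨k + 1, mem_iUnion.2 ⟨i, c2, c1, c4, c3⟩⟩
      refine mem_iUnion.2 (key c x (ch_mem b1 b3).1 h1 ⟨y, b4, h2⟩ ?_)
      clear b4
      induction b3 with
      | refl => exact ⟨0, b1.2, b2⟩
      | tail e e' ih => exact key _ _ (ch_mem b1 e).1 e'.1.2 e'.2 ih
    · induction k with
      | zero => exact fun p h => ⟨h.1, h.2.mono (inter_subset_inter_right _ subset_union_left)⟩
      | succ k ih =>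
        refine iUnion_subset fun i p ⟨h1, h2, h3, y, h4, h5⟩ => ?_
        exact ⟨h1, y, h5, .inr (mem_us'.2 ⟨_, ⟨⟨i, h2, rfl⟩, ih h3⟩, h4⟩)⟩
  have mm : MeasurableSet {p : Cf CL × CL | p.2 ∈ HL (pts p.1) V Q} := e ▸ .iUnion m
  refine ⟨mm, fun w w' h => congrArg (fun U => LV V ∩ Mt (Q ∪ U)) (us_congr (Set.ext fun x => ?_))⟩
  refine and_congr_left fun hx => ?_
  have := congrArg (· {x}) h
  simp only [Measure.restrict_apply (measurableSet_singleton x), singleton_inter_of_mem hx] at this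
  rw [mem_pts, mem_pts, this]

theorem n_zero (hV : IsOpen V) (hQ : IsClosed Q) {S : Set CL} (hS : MeasurableSet S) {w : Cf CL} :
    N w (S ∩ HL (pts w) V Q) = 0 ↔ ∀ γ ∈ pts w ∩ HL (pts w) V Q, γ ∉ S := by
  rw [N_eq_zero (hS.inter ((stop_hl hV hQ).ms w)), disjoint_left]
  exact ⟨fun h γ a b => h a.1 ⟨b, a.2⟩, fun h γ a b => h γ ⟨a, b.2⟩ b.1⟩

theorem disj_us : Disjoint (Us L V Q) R ↔ ∀ γ ∈ L ∩ HL L V Q, γ ∉ Mt R :=
  ⟨fun h γ a ⟨_, b, c⟩ => disjoint_left.1 h (mem_us'.2 ⟨γ, a, b⟩) c, fun h => disjoint_left.2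
    fun z a b => let ⟨c, c1, c2⟩ := mem_us'.1 a; h c c1 ⟨z, c2, b⟩⟩

theorem meas_disj (hV : IsOpen V) (hQ : IsClosed Q) (hR : MeasurableSet (Mt R)) :
    MeasurableSet {w : Cf CL | Disjoint (Us (pts w) V Q) R} := by
  simp only [disj_us, ← n_zero hV hQ hR]
  exact meas_N (H := fun w => Mt R ∩ HL (pts w) V Q) measurable_id
    ((measurable_snd hR).inter (stop_hl hV hQ).meas) (measurableSet_singleton 0)

theorem pts_fin {E : Type*} [MeasurableSpace E] {w : Cf E} (h : N w univ ≠ ⊤) : (pts w).Finite := by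
  rw [N_apply _ .univ] at h
  refine ((ENNReal.finite_const_le_of_tsum_ne_top h one_ne_zero).image fun i => (w i).1).subset ?_
  rintro _ ⟨i, hi, rfl⟩
  exact ⟨i, by simp [hi], rfl⟩

end Vale.Agent.P155S.Fub
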