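import Vale.Agent.P155S.PoiC

/-!
# P155: the Fubini identity for a Poisson stopping set and an independent random set
-/

set_option linter.all false

noncomputable section

namespace Vale.Agent.P155S.Fub

open MeasureTheory Set Filter Topology Vale.Agent.P155S.Poi
open scoped NNReal ENNReal

variable {E Y : Type*} [MeasurableSpace E] [StandardBorelSpace E] [MeasurableSpace Y]
  {ν : Measure E} [SigmaFinite ν] {P : Measure (Cf E)} {Q : Measure Y} [SFinite Q]
  {H : Cf E → Set E} {S : Y → Set E} {G : Set Y}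

theorem core (h : IsPPP ν P) (hH : Stop H) (hS : MeasurableSet {p : Y × E | p.2 ∈ S p.1})
    (hG : MeasurableSet G) :
    ∫⁻ w, ∫⁻ y in {y | y ∈ G ∧ N w (S y ∩ H w) = 0}, (ex (ν (S y ∩ H w)))⁻¹ ∂Q ∂P =
      ∫⁻ y in G, ∫⁻ w, (ex (ν (S y ∩ H w)))⁻¹ * ex (ν (S y ∩ H w)) ∂P.map (res (S y)ᶜ) ∂Q := by
  have := h.prob
  have m0 : MeasurableSet {p : (Cf E × Y) × E | p.2 ∈ S p.1.2 ∩ H p.1.1} :=
    ((measurable_fst.snd.prodMk measurable_snd) hS).inter
      ((measurable_fst.fst.prodMk measurable_snd) hH.meas)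
  have m1 : MeasurableSet {p : Cf E × Y | p.2 ∈ G ∧ N p.1 (S p.2 ∩ H p.1) = 0} :=
    (measurable_snd hG).inter (meas_N (H := fun p : Cf E × Y => S p.2 ∩ H p.1) measurable_fst m0
      (measurableSet_singleton 0))
  have m2 : Measurable fun p : Cf E × Y => (ex (ν (S p.2 ∩ H p.1)))⁻¹ :=
    (meas_ex.comp (measurable_measure_prodMk_left m0)).inv
  have h1 := lintegral_lintegral_swap (μ := P) (ν := Q)
    (f := fun w y => {p : Cf E × Y | p.2 ∈ G ∧ N p.1 (S p.2 ∩ H p.1) = 0}.indicator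
      (fun p => (ex (ν (S p.2 ∩ H p.1)))⁻¹) (w, y)) (m2.indicator m1).aemeasurable
  refine (lintegral_congr fun w => (lintegral_indicator (measurable_prodMk_left m1) _).symm).trans
    (h1.trans ?_)
  rw [← lintegral_indicator hG]
  refine lintegral_congr fun y => ?_
  by_cases hy : y ∈ G
  · have ms : MeasurableSet (S y) := measurable_prodMk_left hS
    rw [indicator_of_mem hy, ← h.cov (F := fun w => (ex (ν (S y ∩ H w)))⁻¹) (h.res ms.compl) ms hH
      (meas_ex.comp (measurable_measure_prodMk_left (s := {p : Cf E × E | p.2 ∈ S y ∩ H p.1})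
        ((measurable_snd ms).inter hH.meas))).inv
      (hH.st.comp fun T => (ex (ν (S y ∩ T)))⁻¹), ← lintegral_indicator
        (by simpa [hy] using measurable_prodMk_right (y := y) m1)]
    simp [indicator, hy]
  · simp [indicator, hy]

theorem core_le (h : IsPPP ν P) (hH : Stop H) (hS : MeasurableSet {p : Y × E | p.2 ∈ S p.1})
    (hG : MeasurableSet G) :
    ∫⁻ w, ∫⁻ y in {y | y ∈ G ∧ N w (S y ∩ H w) = 0}, (ex (ν (S y ∩ H w)))⁻¹ ∂Q ∂P ≤ Q G := by
  rw [core h hH hS hG, ← setLIntegral_one]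
  refine lintegral_mono fun y => ?_
  have := (h.res (B := (S y)ᶜ) (measurable_prodMk_left (x := y) hS).compl).prob
  exact (lintegral_mono fun w => ENNReal.inv_mul_le_one _).trans (lintegral_one.trans measure_univ).le

theorem core_eq [IsFiniteMeasure ν] (h : IsPPP ν P) (hH : Stop H)
    (hS : MeasurableSet {p : Y × E | p.2 ∈ S p.1}) (hG : MeasurableSet G) :
    ∫⁻ w, ∫⁻ y in {y | y ∈ G ∧ N w (S y ∩ H w) = 0}, (ex (ν (S y ∩ H w)))⁻¹ ∂Q ∂P = Q G := by
  rw [core h hH hS hG, ← setLIntegral_one]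
  refine lintegral_congr fun y => ?_
  have := (h.res (B := (S y)ᶜ) (measurable_prodMk_left (x := y) hS).compl).prob
  exact (lintegral_congr fun w => ENNReal.inv_mul_cancel (mt ex_eq_zero.1 (measure_ne_top _ _))
    (ex_ne_top _)).trans (lintegral_one.trans measure_univ)

end Vale.Agent.P155S.Fub
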