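import Vale.Agent.P155I.Sk2

/-!
# P155: the restriction formula for the hulls of the first carpet (statements)
-/

set_option linter.all false

namespace Vale.Agent.P155.Soup

open MeasureTheory ProbabilityTheory Set Metric TopologicalSpace Filter Topology Vale.Agent.P155
  Vale.Agent.P155.Q1 Vale.Agent.P155.Tree Vale.Agent.P155.BL Vale.Agent.P155.Uq
  Vale.Agent.P155S.Poi
open scoped NNReal ENNReal

/-- the mass of the loops in `V` which meet `b` and `E` -/
noncomputable def Lam (W : Measure Pa) (V b E : Set ℂ) : ℝ≥0∞ :=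
  nu W {γ : CL | range γ ⊆ V ∧ (range γ ∩ b).Nonempty ∧ (range γ ∩ E).Nonempty}

/-- the mean of `exp Lam` on the event that the hull of `B` misses `E` -/
noncomputable def mm (W : Measure Pa) (V B E : Set ℂ) : ℝ≥0∞ :=
  ∫⁻ G, {G : NC | Disjoint (SWR.KK V B G) E}.indicator
    (fun G : NC => (ex (Lam W V (SWR.KK V B G) E))⁻¹) G ∂(L1 V)

/-- **MLE** -/
def MLE : Prop := ∀ W, IsWiener W → ∀ V E B, Seed V E B → mm W V B E ≤ 1

/-- **MGE1**: one piece -/
def MGE1 : Prop := ∀ W, IsWiener W → ∀ V E B, Seed V E B → IsPreconnected (B ∩ V) →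
  1 ≤ mm W V B E

/-- **MGE** -/
def MGE : Prop := ∀ W, IsWiener W → ∀ V E B, Seed V E B → FinC (B ∩ V) → 1 ≤ mm W V B E

end Vale.Agent.P155.Soup
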