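import Vale.Agent.P155S.FubB
import Vale.Agent.P155S.Sk

/-!
# P155: the Fubini inequalities between the loop soup and the first carpet
-/

set_option linter.all false

noncomputable section

namespace Vale.Agent.P155S.Fub

open MeasureTheory Set Filter Topology Metric Vale.Agent.P155S.Poi Vale.Agent.P155 Vale.Agent.P155.BL
  Vale.Agent.P155.Soup Vale.Agent.P155.Geo Vale.Agent.P155.Uq Vale.Agent.P155S.Reg
open scoped NNReal ENNReal

section abs

variable {E Y : Type*} [MeasurableSpace E] [MeasurableSpace Y] {H : Cf E → Set E} {S : Y → Set E}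
  {G : Set Y}

theorem meas_set (hH : Stop H) (hS : MeasurableSet {p : Y × E | p.2 ∈ S p.1}) (hG : MeasurableSet G) :
    MeasurableSet {p : Cf E × Y | p.2 ∈ G ∧ N p.1 (S p.2 ∩ H p.1) = 0} :=
  (measurable_snd hG).inter (meas_N (H := fun p : Cf E × Y => S p.2 ∩ H p.1) measurable_fst
    (((measurable_fst.snd.prodMk measurable_snd) hS).inter
      ((measurable_fst.fst.prodMk measurable_snd) hH.meas)) (measurableSet_singleton 0))

theorem meas_inner (ν : Measure E) [SFinite ν] (Q : Measure Y) [SFinite Q] (hH : Stop H)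
    (hS : MeasurableSet {p : Y × E | p.2 ∈ S p.1}) (hG : MeasurableSet G) : Measurable fun w =>
      ∫⁻ y in {y | y ∈ G ∧ N w (S y ∩ H w) = 0}, (ex (ν (S y ∩ H w)))⁻¹ ∂Q := by
  have m1 := meas_set hH hS hG
  have m2 : Measurable fun p : Cf E × Y => (ex (ν (S p.2 ∩ H p.1)))⁻¹ :=
    (meas_ex.comp (measurable_measure_prodMk_left
      (s := {p : (Cf E × Y) × E | p.2 ∈ S p.1.2 ∩ H p.1.1})
      (((measurable_fst.snd.prodMk measurable_snd) hS).inter
        ((measurable_fst.fst.prodMk measurable_snd) hH.meas)))).inv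
  convert (m2.indicator m1).lintegral_prod_right' (ν := Q) using 2 with w
  exact (lintegral_indicator (measurable_prodMk_left m1) _).symm

end abs

variable {V Q R B E : Set ℂ} {G : NC} {γ : CL}

theorem kk_disj : Disjoint (SWR.KK V B G) E ↔ Disjoint B E ∧ G ∉ Jc V B E := by
  rw [SWR.KK, disjoint_union_left, disjoint_sUnion_left]
  refine and_congr_right fun _ => ⟨fun h ⟨U, h1, h2, h3⟩ => h3.not_disjoint (h _ ⟨U, h1, h2, rfl⟩), ?_⟩
  rintro h _ ⟨U, h1, h2, rfl⟩
  exact by_contra fun e => h ⟨U, h1, h2, not_disjoint_iff_nonempty_inter.1 e⟩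

theorem kk_symm : Disjoint (SWR.KK V B G) E ↔ Disjoint (SWR.KK V E G) B := by
  rw [kk_disj, kk_disj, jc_symm, disjoint_comm]

theorem kk_jm (hV : Bornology.IsBounded V) (hB : IsClosed B) (hE : IsCompact E) (h : Disjoint B E)
    (n : SWR.Nice1 V G) : Disjoint (SWR.KK V B G) E ↔ G ∉ Jm V B E := by
  obtain ⟨d, d0, hd⟩ := exists_pos_forall_lt_edist hE hB h.symm
  rw [kk_disj, and_iff_right h]
  refine not_congr ⟨fun e => jc_sub_jm e, jm_sub_jc hV hB hE.isClosed (d := d) d0
    (fun x hx y hy => ?_) n.fin⟩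
  have := hd y hy x hx
  rw [edist_comm, edist_nndist, ENNReal.coe_lt_coe] at this
  exact this.le

/-- a measurable form of the set of the loops which meet the hull -/
def Sg (V B : Set ℂ) (G : NC) : Set CL := Mt B ∪ {γ | G ∈ Jm V B (range γ)}

theorem sg_meas (hV : IsOpen V) (hB : IsClosed B) :
    MeasurableSet {p : NC × CL | p.2 ∈ Sg V B p.1} := by
  refine (measurable_snd (mt_closed hB)).union ?_
  show MeasurableSet {p : NC × CL | p.1 ∈ Jm V B (range p.2)}
  simp only [Jm, mem_iInter, setOf_forall]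
  refine .iInter fun n => IsOpen.measurableSet (α := NC × CL) (isOpen_iff_forall_mem_open.2 ?_)
  rintro ⟨G, γ⟩ ⟨U, h1, ⟨x, h2, h3⟩, y, h4, h5⟩
  obtain ⟨_, ⟨s, rfl⟩, h6⟩ := mem_thickening_iff.1 h5
  refine ⟨Same V x y ×ˢ {γ' : CL | dist y (γ' s) < 1 / (n + 1 : ℝ)}, ?_, (isOpen_same hV x y).prod
    (isOpen_lt (by fun_prop) continuous_const), ⟨U, h1, h2, h4⟩, h6⟩
  rintro ⟨G', γ'⟩ ⟨⟨U', a1, a2, a3⟩, a4⟩
  exact ⟨U', a1, ⟨x, a2, h3⟩, y, a3, mem_thickening_iff.2 ⟨_, ⟨s, rfl⟩, a4⟩⟩

theorem sg_eq (hV : Bornology.IsBounded V) (hB : IsClosed B) (n : SWR.Nice1 V G) :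
    Sg V B G = Mt (SWR.KK V B G) := Set.ext fun γ => by
  by_cases h : γ ∈ Mt B
  · exact iff_of_true (.inl h) (h.mono (inter_subset_inter_right _ subset_union_left))
  rw [Sg, mem_union, or_iff_right h, mem_setOf_eq, ← not_iff_not, ← kk_jm hV hB
    (isCompact_range γ.continuous) (disjoint_comm.1 (not_not.1 (mt not_disjoint_iff_nonempty_inter.1 h)))
    n, Mt, mem_setOf_eq, ← not_disjoint_iff_nonempty_inter, not_not, disjoint_comm]

theorem sf_nu {W : Measure Pa} (hW : IsWiener W) : SigmaFinite (nu W) := by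
  have := hW.sigmaFinite_loopM
  have e : (1 / 2 : ℝ≥0∞) = (1 / 2 : ℝ≥0) := by simp
  rw [nu, e]
  exact SMul.sigmaFinite _

theorem compl_inf (hV : Bornology.IsBounded V) : Vᶜ.Infinite := fun h =>
  NormedSpace.unbounded_univ ℝ ℂ (union_compl_self V ▸ hV.union h.isBounded)

theorem l1_eq (gs : GS) (s : Seed V Q R) :
    L1 V {G : NC | Disjoint (SWR.KK V Q G) R} = L1 V (Jm V R Q)ᶜ :=
  measure_congr ((gs V s.dom).2.2.1.mono fun _ hy =>
    propext (kk_symm.trans (kk_jm s.dom.2.1 s.cr s.cq s.disj.symm hy.nice)))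

theorem f1_of (gs : GS) (le : MLE) : F1 := by
  rintro P ⟨W, hW, hP⟩ V Q R s
  obtain ⟨ho, hb, -⟩ := id s.dom
  obtain ⟨g1, -, g2, -⟩ := gs V s.dom
  have := sf_nu hW
  have := hP.prob
  have hH := stop_hl ho s.cq.isClosed
  have hS := sg_meas ho s.cr
  have hG := (measurableSet_jm ho R Q).compl
  have mR := meas_disj ho s.cq.isClosed (mt_closed s.cr)
  let D : ℕ → Set CL := fun n => LV V ∩ {γ | sc n < diam (range γ)}
  have mD : ∀ n, MeasurableSet (D n) := fun n =>
    (lv_meas ho).inter (measurableSet_lt measurable_const measurable_diam)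
  have hD : Monotone D := fun m n e γ h => ⟨h.1, (sc_anti e).trans_lt h.2⟩
  have key : ∀ n, L1 V (Jm V R Q)ᶜ ≤ P (res (D n) ⁻¹' {w | Disjoint (Us (pts w) V Q) R}) := fun n => by
    have : IsFiniteMeasure ((nu W).restrict (D n)) := isFiniteMeasure_restrict.2
      (ENNReal.mul_ne_top (by simp) (hW.fin hb (sc_pos n)).ne)
    have h := hP.res (mD n)
    rw [← core_eq h hH hS hG, ← Measure.map_apply (meas_res' (mD n)) mR, ← lintegral_indicator_one mR]
    refine lintegral_mono_ae ((h.fin .univ (measure_ne_top _ _)).mono fun w hw => ?_)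
    by_cases c : Disjoint (Us (pts w) V Q) R
    swap
    · rw [eq_empty_of_forall_notMem (s := {y | _}) fun y hy => c (disj_us.2 fun γ a b =>
        (n_zero ho s.cq.isClosed (measurable_prodMk_left hS)).1 hy.2 γ a (.inl b))]
      simp
    have cU : IsCompact (Us (pts w) V Q) := by
      rw [show Us (pts w) V Q = ⋃ c ∈ pts w ∩ HL (pts w) V Q, range c from
        Set.ext fun z => by simp only [mem_us', mem_iUnion, exists_prop]]
      exact ((pts_fin hw).inter_of_left _).isCompact_biUnion fun c _ => isCompact_range c.continuous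
    refine le_trans ?_ ((le W hW V (Q ∪ Us (pts w) V Q) R ⟨s.dom, s.cq.union cU, s.cr,
      disjoint_union_left.2 ⟨s.disj, c⟩, us_conn s.pq (compl_inf hb).nonempty, s.pr⟩).trans_eq
        (indicator_of_mem (s := {w | Disjoint (Us (pts w) V Q) R}) c 1).symm)
    refine (lintegral_indicator (measurable_prodMk_left (meas_set hH hS hG)) _).symm.trans_le
      (lintegral_mono_ae (g2.mono fun y hy => indicator_apply_le' (fun h => ?_) fun _ => zero_le))
    have h1 := (n_zero ho s.cq.isClosed (measurable_prodMk_left (x := y) hS)).1 h.2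
    have e := sg_eq hb s.cr hy.nice
    rw [indicator_of_mem (show y ∈ {G : NC | Disjoint (SWR.KK V R G) (Q ∪ Us (pts w) V Q)} from
      disjoint_union_right.2 ⟨(kk_jm hb s.cr s.cq s.disj.symm hy.nice).2 h.1,
        (disj_us.2 fun γ a b => h1 γ a (e.superset b)).symm⟩)]
    exact ENNReal.inv_le_inv.2 (ex_anti.antitone ((Measure.restrict_apply_le _ _).trans
      (measure_mono fun γ a => ⟨a.2.1, e.subset a.1, a.2.2⟩)))
  rw [l1_eq gs s]
  refine (le_iInf key).trans ((Antitone.measure_iInter (fun m n e w h => ?_)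
    (fun n => (meas_res' (mD n) mR).nullMeasurableSet) ⟨0, measure_ne_top _ _⟩).symm.trans_le
      (measure_mono_ae ?_))
  · refine Disjoint.mono_left (us_mono ?_) h
    simp only [pts_res]
    exact inter_subset_inter_right _ (hD e)
  have m0 := (measurableSet_lt (measurable_const (a := (0 : ℝ))) measurable_diam).compl
  filter_upwards [hP.null m0 (Measure.ae_smul_measure hW.nonconst (1 / 2 : ℝ≥0∞))] with w hw h
  refine disjoint_left.2 fun z hz hz' => ?_
  obtain ⟨n, hn⟩ := us_exh (L := pts w ∩ LV V) hD (fun γ a =>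
    let ⟨n, hn⟩ := exists_nat_one_div_lt (K := ℝ) (ε := diam (range γ))
      (not_not.1 (disjoint_left.1 ((N_eq_zero m0).1 hw) a.1 :))
    mem_iUnion.2 ⟨n, a.2, hn⟩) (us_sub_of (L' := pts w ∩ LV V) (fun _ a => ⟨a.1, a.2.1⟩) hz)
  exact disjoint_left.1 (mem_iInter.1 h n) (us_mono (fun _ a => (pts_res _ _).superset
    ⟨a.1.1, a.2⟩) hn) hz'

theorem mge' (ge : MGE) {W : Measure Pa} (hW : IsWiener W) (s : Seed V E B) (f : FinC (B ∩ V)) :
    1 ≤ mm W V B E := ge W hW V E B s f

theorem f2f_of (gs : GS) (ge : MGE) : F2f := by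
  rintro P ⟨W, hW, hP⟩ V Q R s f
  obtain ⟨ho, hb, -⟩ := id s.dom
  obtain ⟨g1, -, g2, -⟩ := gs V s.dom
  have := sf_nu hW
  have hH := stop_hl ho s.cq.isClosed
  have hS := sg_meas ho s.cr
  have hG := (measurableSet_jm ho R Q).compl
  rw [l1_eq gs s]
  refine le_trans (measure_mono fun w hw => ?_) (((one_mul _).symm.trans_le (mul_meas_ge_le_lintegral
    (meas_inner (nu W) (L1 V) hH hS hG) 1)).trans (core_le hP hH hS hG))
  have pc := us_conn (L := pts w) (V := V) s.pq (compl_inf hb).nonempty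
  have sc : Q ∪ closure (Us (pts w) V Q) ⊆ closure (Vᶜ ∪ (Q ∪ Us (pts w) V Q)) :=
    union_subset (fun _ a => subset_closure (.inr (.inl a))) (closure_mono fun _ a => .inr (.inr a))
  refine (mge' ge hW (E := Q ∪ closure (Us (pts w) V Q)) ⟨s.dom, s.cq.union
    (hb.subset us_sub).isCompact_closure, s.cr, disjoint_union_left.2 ⟨s.disj, hw⟩,
      pc.subset_closure (union_subset_union_right _ (union_subset_union_right _ subset_closure))
        (union_subset (fun _ a => subset_closure (.inl a)) sc), s.pr⟩ f).trans ?_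
  refine le_trans (lintegral_mono_ae (g2.mono fun y hy => indicator_apply_le' (fun h => ?_)
    fun _ => zero_le)) (lintegral_indicator_le _ _)
  have e := sg_eq hb s.cr hy.nice
  have h1 := disjoint_union_right.1 h
  rw [indicator_of_mem (show y ∈ {y | y ∈ (Jm V R Q)ᶜ ∧ N w (Sg V R y ∩ HL (pts w) V Q) = 0} from
    ⟨(kk_jm hb s.cr s.cq s.disj.symm hy.nice).1 h1.1,
      (n_zero ho s.cq.isClosed (measurable_prodMk_left (x := y) hS)).2 fun γ a b =>
        disj_us.1 (h1.2.symm.mono_left subset_closure) γ a (e.subset b)⟩)]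
  refine ENNReal.inv_le_inv.2 (ex_anti.antitone (measure_mono_ae ?_))
  filter_upwards [Measure.ae_smul_measure (measure_eq_zero_iff_ae_notMem.1
    (reg hW pc ((compl_inf hb).mono subset_union_left).nontrivial)) (1 / 2 : ℝ≥0∞)] with γ a b
  obtain ⟨z, z1, z2⟩ := not_disjoint_iff.1 fun c => a ⟨b.2.2.mono (inter_subset_inter_right _ sc), c⟩
  exact ⟨e.superset b.2.1, b.1, z, z1, z2.resolve_left fun c => c (b.1 z1)⟩

theorem posf_of (ge : MGE) : POSf := fun V Q R s f h => by
  obtain ⟨W, hW⟩ := exists_wiener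
  refine absurd ((mge' ge hW s f).trans_eq ((lintegral_congr_ae ?_).trans lintegral_zero)) (by simp)
  filter_upwards [measure_eq_zero_iff_ae_notMem.1 h] with G hG
  exact indicator_of_notMem (fun c => hG (kk_symm.1 c)) _

theorem reg_row : REG := fun _ hW _ hU h => reg hW hU h

end Vale.Agent.P155S.Fub
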