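import Vale.Agent.P155H.Slit
import Vale.Agent.P155.QQ.Fin

/-!
# P155: approximations of a slit annulus which fill the inner disc
-/

set_option linter.all false

namespace Vale.Agent.P155.Pocket

open Set Metric Filter Topology Complex Vale.Agent.P155 Vale.Agent.P155.Q1 Vale.Agent.P155.Tree

/-- the slit and an arc of the unit circle -/
def EE (η : ℝ) : Set ℂ :=
  segment ℝ (-2) (-1) ∪ (fun θ : ℝ => exp (θ * I)) '' Icc η (2 * Real.pi - η)

/-- the domains -/
def Om (η : ℝ) : Set ℂ := connectedComponentIn (ball 0 2 \ EE η) (3 / 2)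

variable {η : ℝ} {z : ℂ}

theorem cont_e : Continuous fun θ : ℝ => exp (θ * I) := by fun_prop

theorem seg_iff : z ∈ segment ℝ (-2 : ℂ) (-1) → ∃ t : ℝ, -2 ≤ t ∧ t ≤ -1 ∧ z = t := by
  rintro ⟨a, b, ha, hb, hab, rfl⟩
  refine ⟨-2 * a - b, by linarith, by linarith, ?_⟩
  simp only [real_smul]
  push_cast
  ring

theorem EE_closed : IsClosed (EE η) := by
  refine IsClosed.union ?_ (isCompact_Icc.image cont_e).isClosed
  rw [segment_eq_image]
  exact (isCompact_Icc.image (by fun_prop)).isClosed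

theorem EE_mono (h : 0 ≤ η) : EE η ⊆ EE 0 :=
  union_subset_union_right _ (image_mono (Icc_subset_Icc h (by linarith)))

theorem real_mem {t : ℝ} (h0 : 0 ≤ t) (h2 : t < 2) (h : t ≠ 1 ∨ 0 < η) :
    (t : ℂ) ∈ ball 0 2 \ EE η := by
  refine ⟨by rw [mem_ball_zero_iff, norm_real, Real.norm_of_nonneg h0]; exact h2, ?_⟩
  rintro (k | ⟨θ, hθ, k⟩)
  · obtain ⟨s, -, k1, k2⟩ := seg_iff k
    have := ofReal_injective k2
    linarith
  · have k1 : t = 1 := by
      have := congrArg norm k
      rw [norm_exp_ofReal_mul_I, norm_real, Real.norm_of_nonneg h0] at this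
      exact this.symm
    rcases h with h | h
    · exact h k1
    · have k2 : Real.cos θ = 1 := by
        have := congrArg re k
        rwa [exp_ofReal_mul_I_re, ofReal_re, k1] at this
      have := (Real.cos_eq_one_iff_of_lt_of_lt (by linarith [hθ.1, Real.pi_pos])
        (by linarith [hθ.2])).1 k2
      linarith [hθ.1]

theorem base_mem : (3 / 2 : ℂ) ∈ ball 0 2 \ EE η := by
  have := real_mem (η := η) (t := 3 / 2) (by norm_num) (by norm_num) (Or.inl (by norm_num))
  push_cast at this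
  exact this

theorem dom_Om (h : η ≤ 1) : Dom (Om η) := by
  have hpi := Real.pi_gt_three
  have e : ball (0 : ℂ) 2 \ EE η = ball 0 2 \ ((ball 0 2)ᶜ ∪ EE η) := by
    ext z
    simp only [Set.mem_sdiff, mem_union, mem_compl_iff]
    tauto
  have hb : Dom (ball (0 : ℂ) 2) := by
    refine ⟨isOpen_ball, isBounded_ball, nonempty_ball.2 two_pos, ?_⟩
    have := (convex_ball (0 : ℂ) 2).contractibleSpace (nonempty_ball.2 two_pos)
    infer_instance
  refine Geo.dom_hole (K := (ball 0 2)ᶜ ∪ EE η) isOpen_ball isBounded_ball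
    (isOpen_ball.isClosed_compl.union EE_closed) ?_ subset_union_left ⟨3 / 2, e ▸ base_mem, ?_⟩
  · refine IsPreconnected.union (-2) (by simp) (Or.inl (left_mem_segment _ _ _))
      (Geo.dom_compl_conn hb).isPreconnected ?_
    refine IsPreconnected.union (-1) (right_mem_segment _ _ _)
      ⟨Real.pi, ⟨by linarith, by linarith⟩, exp_pi_mul_I⟩ (convex_segment _ _).isPreconnected
      (isPreconnected_Icc.image _ cont_e.continuousOn)
  · rw [← e]
    rfl

theorem Om_sub (h : 0 ≤ η) : Om 0 ⊆ Om η :=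
  connectedComponentIn_mono _ (sdiff_subset_sdiff_right (EE_mono h))

theorem zero_mem (h : 0 < η) : (0 : ℂ) ∈ Om η := by
  have h1 : IsPreconnected ((fun t : ℝ => (t : ℂ)) '' Icc 0 (3 / 2)) :=
    isPreconnected_Icc.image _ continuous_ofReal.continuousOn
  refine h1.subset_connectedComponentIn ⟨3 / 2, by norm_num, by push_cast; rfl⟩ ?_
    ⟨0, by norm_num, by simp⟩
  rintro _ ⟨t, ht, rfl⟩
  exact real_mem ht.1 (by linarith [ht.2]) (Or.inr h)

theorem circ_mem (h : ‖z‖ = 1) : z ∈ EE 0 := by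
  have hpi := Real.pi_pos
  refine Or.inr ⟨arg (-z) + Real.pi, ⟨by linarith [neg_pi_lt_arg (-z)],
    by linarith [arg_le_pi (-z)]⟩, ?_⟩
  have h1 := norm_mul_exp_arg_mul_I (-z)
  rw [norm_neg, h, ofReal_one, one_mul] at h1
  simp only
  rw [ofReal_add, add_mul, exp_add, h1, exp_pi_mul_I]
  ring

theorem one_le (h : z ∈ Om 0) : 1 ≤ ‖z‖ := by
  by_contra hn
  obtain ⟨w, hw, k⟩ := isPreconnected_connectedComponentIn.intermediate_value h
    (mem_connectedComponentIn base_mem) continuous_norm.continuousOn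
    (show (1 : ℝ) ∈ Icc ‖z‖ ‖(3 / 2 : ℂ)‖ from ⟨(not_le.1 hn).le, by norm_num⟩)
  exact (connectedComponentIn_subset _ _ hw).2 (circ_mem k)

theorem ann_sub (h1 : 1 ≤ ‖z‖) (h2 : ‖z‖ ≤ 2) : z ∈ closure (Om 0) := by
  have hpi := Real.pi_pos
  set f : ℝ × ℝ → ℂ := fun p => p.1 * exp (p.2 * I)
  have hf : Continuous f := by fun_prop
  have k1 : f '' Ioo 1 2 ×ˢ Ioo (-Real.pi) Real.pi ⊆ Om 0 := by
    refine ((isPreconnected_Ioo.prod isPreconnected_Ioo).image _
      hf.continuousOn).subset_connectedComponentIn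
      ⟨(3 / 2, 0), ⟨by norm_num, ⟨by linarith, hpi⟩⟩, by simp [f]⟩ ?_
    rintro _ ⟨⟨r, θ⟩, ⟨hr, hθ⟩, rfl⟩
    have hn : ‖f (r, θ)‖ = r := by
      simp only [f]
      rw [norm_mul, norm_exp_ofReal_mul_I, mul_one, norm_real,
        Real.norm_of_nonneg (by linarith [hr.1])]
    refine ⟨by rw [mem_ball_zero_iff, hn]; exact hr.2, ?_⟩
    rintro (k | ⟨s, -, k⟩)
    · obtain ⟨t, -, k2, k3⟩ := seg_iff k
      have k4 : arg (f (r, θ)) = θ := by
        simp only [f]
        rw [exp_mul_I]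
        exact arg_mul_cos_add_sin_mul_I (by linarith [hr.1]) ⟨hθ.1, hθ.2.le⟩
      rw [k3, arg_ofReal_of_neg (by linarith)] at k4
      exact hθ.2.ne' k4
    · have := congrArg norm k
      rw [norm_exp_ofReal_mul_I, hn] at this
      exact hr.1.ne this
  refine closure_mono k1 (image_closure_subset_closure_image hf ⟨(‖z‖, arg z), ?_,
    norm_mul_exp_arg_mul_I z⟩)
  rw [closure_prod_eq, closure_Ioo one_lt_two.ne, closure_Ioo (by linarith)]
  exact ⟨⟨h1, h2⟩, (neg_pi_lt_arg z).le, arg_le_pi z⟩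

theorem front_eq (h0 : 0 ≤ η) : frontier (Om η) = sphere 0 2 ∪ EE η := by
  have ho : IsOpen (ball (0 : ℂ) 2 \ EE η) := isOpen_ball.sdiff EE_closed
  have hs : Om η ⊆ ball 0 2 \ EE η := connectedComponentIn_subset _ _
  rw [(show IsOpen (Om η) from ho.connectedComponentIn).frontier_eq]
  refine Subset.antisymm (fun z hz => ?_) fun z hz => ⟨closure_mono (Om_sub h0) ?_, fun k => ?_⟩
  · by_contra hn
    rw [mem_union, not_or] at hn
    have k1 : z ∈ closedBall (0 : ℂ) 2 :=
      closure_minimal ((hs.trans sdiff_subset).trans ball_subset_closedBall) isClosed_closedBall hz.1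
    have k2 : z ∈ ball (0 : ℂ) 2 \ EE η := ⟨lt_of_le_of_ne k1 hn.1, hn.2⟩
    obtain ⟨w, k3, k4⟩ := mem_closure_iff.1 hz.1 _ ho.connectedComponentIn
      (mem_connectedComponentIn k2)
    refine hz.2 ?_
    unfold Om
    rw [connectedComponentIn_eq k4, ← connectedComponentIn_eq k3]
    exact mem_connectedComponentIn k2
  · rcases hz with hz | hz | ⟨θ, -, rfl⟩
    · rw [mem_sphere_zero_iff_norm] at hz
      exact ann_sub (by linarith) hz.le
    · obtain ⟨t, k1, k2, rfl⟩ := seg_iff hz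
      have : ‖(t : ℂ)‖ = -t := by rw [norm_real, Real.norm_of_nonpos (by linarith)]
      exact ann_sub (by linarith) (by linarith)
    · exact ann_sub (norm_exp_ofReal_mul_I θ).ge (by rw [norm_exp_ofReal_mul_I]; norm_num)
  · rcases hz with hz | hz
    · exact (mem_ball.1 (hs k).1).ne hz
    · exact (hs k).2 hz

theorem near (h0 : 0 ≤ η) (h1 : η ≤ 1) (hz : z ∈ frontier (Om 0)) :
    ∃ y ∈ frontier (Om η), dist z y ≤ η := by
  have hpi := Real.pi_gt_three
  rw [front_eq le_rfl] at hz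
  rw [front_eq h0]
  rcases hz with hz | hz | ⟨θ, hθ, rfl⟩
  · exact ⟨z, Or.inl hz, by rwa [dist_self]⟩
  · exact ⟨z, Or.inr (Or.inl hz), by rwa [dist_self]⟩
  · obtain ⟨s, hs, k⟩ : ∃ s ∈ Icc η (2 * Real.pi - η), |θ - s| ≤ η := by
      refine ⟨max η (min θ (2 * Real.pi - η)), ⟨le_max_left _ _,
        max_le (by linarith) (min_le_right _ _)⟩, abs_le.2 ⟨?_, ?_⟩⟩
      · have := max_le (show η ≤ θ + η by linarith [hθ.1])
          ((min_le_left θ (2 * Real.pi - η)).trans (show θ ≤ θ + η by linarith))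
        linarith
      · have := (le_min (show θ - η ≤ θ by linarith)
          (show θ - η ≤ 2 * Real.pi - η by linarith [hθ.2])).trans
          (le_max_right η (min θ (2 * Real.pi - η)))
        linarith
    refine ⟨_, Or.inr (Or.inr ⟨s, hs, rfl⟩), ?_⟩
    have e : exp (θ * I) - exp (s * I) = exp (s * I) * (exp (I * (θ - s : ℝ)) - 1) := by
      rw [mul_sub, ← exp_add, mul_one]
      congr 2
      push_cast
      ring
    rw [dist_eq_norm, e, norm_mul, norm_exp_ofReal_mul_I, one_mul]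
    exact Real.norm_exp_I_mul_ofReal_sub_one_le.trans k

/-- approximations which are not outer approximations -/
theorem pocket (hex : ∀ Ω, Dom Ω → Nonempty (Approx Ω)) :
    ∃ Ω, Dom Ω ∧ ∃ S : Approx Ω, ¬ S.Outer := by
  set u : ℕ → ℝ := fun k => 1 / ((k : ℝ) + 1)
  have hu : ∀ k, 0 < u k := fun k => Nat.one_div_pos_of_nat
  have hu1 : ∀ k, u k ≤ 1 := fun k => by
    simp only [u]
    rw [div_le_one (by positivity)]
    linarith [(Nat.cast_nonneg k : (0 : ℝ) ≤ k)]
  have hl : Tendsto u atTop (𝓝 0) := tendsto_one_div_add_atTop_nhds_zero_nat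
  have hd := dom_Om (η := 0) zero_le_one
  set K : ℕ → Set ℂ := fun k => closure (Om 0) \ thickening (u k) (Om 0)ᶜ
  have hK : ∀ k, IsCompact (insert 0 (K k)) := fun k =>
    (hd.2.1.isCompact_closure.diff isOpen_thickening).insert 0
  have hK' : ∀ k, insert 0 (K k) ⊆ Om (u k) := fun k => insert_subset (zero_mem (hu k))
    fun z hz => Om_sub (hu k).le (by_contra fun h => hz.2 (self_subset_thickening (hu k) _ h))
  obtain ⟨S⟩ : Nonempty (∀ k, Approx (Om (u k))) := ⟨fun k => (hex _ (dom_Om (hu1 k))).some⟩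
  choose n h1 h2 h3 h4 using fun k => ((((S k).mesh.eventually (gt_mem_nhds (hu k))).and
    (((S k).cara₁ _ (hK' k) (hK k)).and (((S k).haus₁ _ (hu k)).and
      ((S k).haus₂ _ (hu k))))).exists)
  have H2 : ∀ ε > 0, ∀ᶠ k in atTop, frontier (Om 0) ⊆ thickening ε (frontier
      (region ((S k).δ (n k)) ((S k).a (n k)) ((S k).T (n k)).faceSet)) := by
    intro ε hε
    filter_upwards [hl.eventually (gt_mem_nhds (half_pos hε))] with k hk z hz
    obtain ⟨y, k1, k2⟩ := near (hu k).le (hu1 k) hz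
    obtain ⟨w, k3, k4⟩ := mem_thickening_iff.1 (h4 k k1)
    exact mem_thickening_iff.2 ⟨w, k3, by linarith [dist_triangle z y w]⟩
  refine ⟨Om 0, hd, ⟨fun k => (S k).T (n k), fun k => (S k).δ (n k), fun k => (S k).a (n k),
    fun k => (S k).pos _, squeeze_zero (fun k => ((S k).pos _).le) (fun k => (h1 k).le) hl,
    fun C hC hc => ?_, fun U hU hc hne hf => ?_, fun ε hε => ?_, H2⟩, fun h => ?_⟩
  · obtain ⟨d, hd0, hdd⟩ := (disjoint_compl_right_iff_subset.2 hC).exists_thickenings hc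
      hd.1.isClosed_compl
    filter_upwards [hl.eventually (gt_mem_nhds hd0)] with k hk z hz
    exact h2 k (Or.inr ⟨subset_closure (hC hz), fun h => disjoint_left.1 hdd
      (self_subset_thickening hd0 _ hz) (thickening_mono hk.le _ h)⟩)
  · refine hc.isPreconnected.subset_of_closure_inter_subset hd.1 hne fun x hx => ?_
    by_contra hn
    obtain ⟨r, hr, hrU⟩ := Metric.isOpen_iff.1 hU x hx.2
    obtain ⟨k, k1, k2⟩ := (hf.and_eventually (H2 r hr)).exists
    obtain ⟨w, k3, k4⟩ := mem_thickening_iff.1 (k2 (show x ∈ frontier (Om 0) by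
      rw [hd.1.frontier_eq]; exact ⟨hx.1, hn⟩))
    exact k3.2 (interior_maximal k1 hU (hrU (by rw [mem_ball, dist_comm]; exact k4)))
  · filter_upwards [hl.eventually (gt_mem_nhds hε)] with k hk
    refine (h3 k).trans ((thickening_mono hk.le _).trans (thickening_subset_of_subset _ ?_))
    rw [front_eq (hu k).le, front_eq le_rfl]
    exact union_subset_union_right _ (EE_mono (hu k).le)
  · obtain ⟨k, hk⟩ := (h 1 one_pos).exists
    obtain ⟨y, k1, k2⟩ := mem_thickening_iff.1 (hk (interior_subset (h2 k (mem_insert _ _))))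
    rw [dist_zero_left] at k2
    exact k2.not_ge (one_le k1)

end Vale.Agent.P155.Pocket
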