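import Vale.Agent.P155S.PoiA

/-!
# P155S: uniqueness in law of Poisson point processes
-/

noncomputable section

open MeasureTheory ProbabilityTheory Set Filter Topology BoundedContinuousFunction
open scoped ENNReal NNReal Classical

namespace Vale.Agent.P155S.Poi

/-- Laplace transforms determine finite measures on countable products -/
theorem ext_ex {J : Type*} [Countable J] {μ μ' : Measure (J → ℝ≥0∞)} [IsFiniteMeasure μ]
    [IsFiniteMeasure μ'] (h : ∀ l : List J, ∫⁻ x, ex (l.map x).sum ∂μ = ∫⁻ x, ex (l.map x).sum ∂μ') :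
    μ = μ' := by
  have c : ∀ l : List J, Continuous fun x : J → ℝ≥0∞ => ex (l.map x).sum := fun l =>
    cont_ex.comp (continuous_list_sum l fun j _ => continuous_apply j)
  let g (l : List J) : (J → ℝ≥0∞) →ᵇ ℝ := mkOfCompact ⟨fun x => (ex (l.map x).sum).toReal,
    ENNReal.continuousOn_toReal.comp_continuous (c l) fun _ => ex_ne_top _⟩
  let M : Submonoid ((J → ℝ≥0∞) →ᵇ ℝ) :=
    { carrier := range g
      one_mem' := ⟨[], by ext; simp [g]⟩
      mul_mem' := by
        rintro _ _ ⟨l, rfl⟩ ⟨l', rfl⟩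
        exact ⟨l ++ l', by ext; simp [g, ex_add]⟩ }
  refine ext_of_forall_mem_subalgebra_integral_eq_of_polish (𝕜 := ℝ)
    (A := ⟨Algebra.adjoin ℝ M, fun {x} hx => by rwa [show star x = x from rfl]⟩) ?_ fun f hf => ?_
  · intro x y hxy
    obtain ⟨j, hj⟩ := Function.ne_iff.1 hxy
    refine ⟨_, ⟨_, ⟨g [j], Algebra.subset_adjoin ⟨_, rfl⟩, rfl⟩, rfl⟩, fun e => hj ?_⟩
    simpa [g, ENNReal.toReal_eq_toReal_iff' (ex_ne_top _) (ex_ne_top _), ex_anti.injective.eq_iff]
      using e
  · have hf' : f ∈ Submodule.span ℝ (range g) := by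
      have : f ∈ (Algebra.adjoin ℝ (M : Set _)).toSubmodule := hf
      rwa [Algebra.adjoin_eq_span, Submonoid.closure_eq] at this
    clear hf
    induction hf' using Submodule.span_induction with
    | mem _ hx =>
      obtain ⟨l, rfl⟩ := hx
      exact (integral_toReal (c l).measurable.aemeasurable
        (.of_forall fun _ => (ex_ne_top _).lt_top)).trans ((congrArg _ (h l)).trans
        (integral_toReal (c l).measurable.aemeasurable
          (.of_forall fun _ => (ex_ne_top _).lt_top)).symm)
    | zero => simp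
    | add x y _ _ hx hy =>
      simp only [coe_add, Pi.add_apply]
      rw [integral_add (x.integrable _) (y.integrable _),
        integral_add (x.integrable _) (y.integrable _), hx, hy]
    | smul a x _ hx => simp [integral_const_mul, hx]

variable {E : Type*} [MeasurableSpace E] {ν : Measure E} {P P' : Measure (Cf E)}

/-- functionals of the counting measure -/
def Inv {β : Type*} (F : Cf E → β) : Prop := ∀ w w', N w = N w' → F w = F w'

/-- locally finite configurations -/
def Lf (ν : Measure E) [SigmaFinite ν] : Set (Cf E) := {w | ∀ n, N w (spanningSets ν n) ≠ ⊤}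

theorem meas_Lf [SigmaFinite ν] : MeasurableSet (Lf ν) := by
  rw [Lf, ofPred_forall]
  exact .iInter fun n => (meas_N' (measurableSet_spanningSets ν n) (measurableSet_singleton ⊤)).compl

theorem IsPPP.lf [SigmaFinite ν] (h : IsPPP ν P) : ∀ᵐ w ∂P, w ∈ Lf ν :=
  ae_all_iff.2 fun n => h.fin (measurableSet_spanningSets ν n) (measure_spanningSets_lt_top ν n).ne

/-- countably many counts determine a locally finite configuration -/
theorem exists_sep [MeasurableSpace.CountablyGenerated E] (ν : Measure E) [SigmaFinite ν] :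
    ∃ B : ℕ → Set E, (∀ j, MeasurableSet (B j)) ∧ (∀ j, ν (B j) ≠ ⊤) ∧
      ∀ w ∈ Lf ν, ∀ w', (∀ j, N w (B j) = N w' (B j)) → N w = N w' := by
  let A := generateSetAlgebra (MeasurableSpace.countableGeneratingSet E)
  have hA : IsSetAlgebra A := isSetAlgebra_generateSetAlgebra
  have hg : ‹MeasurableSpace E› = .generateFrom A := by
    rw [generateFrom_generateSetAlgebra_eq, MeasurableSpace.generateFrom_countableGeneratingSet]
  have hm : ∀ s ∈ A, MeasurableSet s := fun s hs => hg ▸ MeasurableSpace.measurableSet_generateFrom hs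
  obtain ⟨a, ha⟩ : ∃ a : ℕ → Set E, A = range a := (countable_generateSetAlgebra
    (MeasurableSpace.countable_countableGeneratingSet (α := E))).exists_eq_range ⟨_, hA.univ_mem⟩
  refine ⟨fun j => a j.unpair.1 ∩ spanningSets ν j.unpair.2, fun j =>
    (hm _ (ha ▸ mem_range_self _)).inter (measurableSet_spanningSets ν _), fun j =>
    ((measure_mono inter_subset_right).trans_lt (measure_spanningSets_lt_top ν _)).ne,
    fun w hw w' e => ?_⟩
  have e' : ∀ n, ∀ s ∈ A, (N w).restrict (spanningSets ν n) s =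
      (N w').restrict (spanningSets ν n) s := fun n s hs => by
    rw [Measure.restrict_apply (hm s hs), Measure.restrict_apply (hm s hs)]
    obtain ⟨i, rfl⟩ : s ∈ range a := ha ▸ hs
    simpa using e (Nat.pair i n)
  refine (Measure.ext_iff_of_iUnion_eq_univ (iUnion_spanningSets ν)).2 fun n => ?_
  have : IsFiniteMeasure ((N w).restrict (spanningSets ν n)) := isFiniteMeasure_restrict.2 (hw n)
  exact ext_of_generate_finite A hg (fun s hs t ht _ => hA.inter_mem hs ht) (e' n)
    (e' n _ hA.univ_mem)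

/-- Laplace functionals determine the law of every functional of the counting measure -/
theorem ext_lap [StandardBorelSpace E] (ν : Measure E) [SigmaFinite ν] {μ μ' : Measure (Cf E)}
    [IsFiniteMeasure μ] [IsFiniteMeasure μ'] (l : ∀ᵐ w ∂μ, w ∈ Lf ν) (l' : ∀ᵐ w ∂μ', w ∈ Lf ν)
    (h : ∀ f, Measurable f → ∫⁻ w, ex (∫⁻ x, f x ∂N w) ∂μ = ∫⁻ w, ex (∫⁻ x, f x ∂N w) ∂μ')
    {β : Type*} [MeasurableSpace β] {F : Cf E → β} (hF : Measurable F) (i : Inv F) :
    μ.map F = μ'.map F := by
  obtain ⟨B, hB, -, s⟩ := exists_sep ν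
  let c (w : Cf E) (j : ℕ) := N w (B j)
  have hc : Measurable c := measurable_pi_lambda _ fun j => meas_N' (hB j)
  have e : μ.map c = μ'.map c := ext_ex fun l => by
    have m : Measurable fun x : ℕ → ℝ≥0∞ => ex (l.map x).sum :=
      meas_ex.comp (continuous_list_sum l fun j _ => continuous_apply j).measurable
    have k : ∃ f : E → ℝ≥0∞, Measurable f ∧ ∀ w, ∫⁻ x, f x ∂N w = (l.map (c w)).sum := by
      clear m
      induction l with
      | nil => exact ⟨0, measurable_zero, by simp⟩
      | cons j l ih =>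
        obtain ⟨f, hf, e⟩ := ih
        exact ⟨fun x => (B j).indicator 1 x + f x, (measurable_one.indicator (hB j)).add hf,
          fun w => by simp [lintegral_add_right _ hf, hB j, e, c]⟩
    obtain ⟨f, hf, k⟩ := k
    simp only [lintegral_map m hc, ← k, h f hf]
  ext t ht
  obtain ⟨u, h1, h2, hu⟩ := (((hF ht).inter meas_Lf).analyticSet_image hc).measurablySeparable
    (((hF ht).compl.inter (meas_Lf (ν := ν))).analyticSet_image hc) (by
      rw [disjoint_left]
      rintro _ ⟨w, ⟨a, b⟩, rfl⟩ ⟨w', ⟨a', -⟩, k⟩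
      exact a' (show F w' ∈ t from i _ _ (s w b w' fun j => (congrFun k j).symm) ▸ a))
  have k : ∀ w ∈ Lf ν, (w ∈ F ⁻¹' t) = (w ∈ c ⁻¹' u) := fun w hw => propext
    ⟨fun a => h1 ⟨w, ⟨a, hw⟩, rfl⟩, fun a => by_contra fun b =>
      disjoint_left.1 h2 ⟨w, ⟨b, hw⟩, rfl⟩ a⟩
  rw [Measure.map_apply hF ht, Measure.map_apply hF ht, measure_congr (s := F ⁻¹' t) (t := c ⁻¹' u)
    (l.mono k), measure_congr (s := F ⁻¹' t) (t := c ⁻¹' u) (l'.mono k), ← Measure.map_apply hc hu, e, Measure.map_apply hc hu]

variable [StandardBorelSpace E] [SigmaFinite ν]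

/-- **uniqueness in law** -/
theorem IsPPP.map_eq (h : IsPPP ν P) (h' : IsPPP ν P') {β : Type*} [MeasurableSpace β]
    {F : Cf E → β} (hF : Measurable F) (i : Inv F) : P.map F = P'.map F :=
  have := h.prob
  have := h'.prob
  ext_lap ν h.lf h'.lf (fun f hf => (h.lap f hf).trans (h'.lap f hf).symm) hF i

theorem IsPPP.uniq (h : IsPPP ν P) (h' : IsPPP ν P') {F : Cf E → ℝ≥0∞} (hF : Measurable F)
    (i : Inv F) : ∫⁻ w, F w ∂P = ∫⁻ w, F w ∂P' :=
  (lintegral_map measurable_id hF).symm.trans
    ((congrArg (lintegral · id) (h.map_eq h' hF i)).trans (lintegral_map measurable_id hF))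

theorem IsPPP.uniq_set (h : IsPPP ν P) (h' : IsPPP ν P') {A : Set (Cf E)} (hA : MeasurableSet A)
    (i : Inv (· ∈ A)) : P A = P' A := by
  have m : Measurable (· ∈ A) := measurableSet_setOfPred.1 hA
  have := congrArg (· {True}) (h.map_eq h' m i)
  simp only [Measure.map_apply m (measurableSet_singleton _), preimage, mem_singleton_iff,
    eq_iff_iff, iff_true] at this
  exact this

end Vale.Agent.P155S.Poi
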