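import Vale.Agent.P155S.PoiB

/-!
# P155S: stopping sets of Poisson point processes
-/

noncomputable section

open MeasureTheory ProbabilityTheory Set Filter Topology
open scoped ENNReal NNReal Classical unitInterval

namespace Vale.Agent.P155S.Poi

variable {E : Type*} [MeasurableSpace E] {ν : Measure E} {P P' : Measure (Cf E)}
  {H : Cf E → Set E} {S : Set E} {f : E → ℝ≥0∞} {F : Cf E → ℝ≥0∞}

/-- `F w` is determined by the points of `w` in `H w` -/
def St {β : Type*} (H : Cf E → Set E) (F : Cf E → β) : Prop :=
  ∀ w w', (N w).restrict (H w) = (N w').restrict (H w) → F w' = F w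

/-- stopping sets -/
structure Stop (H : Cf E → Set E) : Prop where
  meas : MeasurableSet {p : Cf E × E | p.2 ∈ H p.1}
  st : St H H

theorem St.inv {β : Type*} {F : Cf E → β} (s : St H F) : Inv F := fun _ _ e => s _ _ (by rw [e])

theorem St.comp {β γ : Type*} {F : Cf E → β} (s : St H F) (g : β → γ) : St H fun w => g (F w) :=
  fun w w' e => congrArg g (s w w' e)

theorem St.pair {β γ : Type*} {F : Cf E → β} {G : Cf E → γ} (s : St H F) (t : St H G) :
    St H fun w => (F w, G w) := fun w w' e => Prod.ext (s w w' e) (t w w' e)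

theorem Stop.ms (h : Stop H) (w : Cf E) : MeasurableSet (H w) := measurable_prodMk_left h.meas

theorem St.mono {β : Type*} {F : Cf E → β} {H' : Cf E → Set E} (s : St H F)
    (m : ∀ w, MeasurableSet (H w)) (k : ∀ w, H w ⊆ H' w) : St H' F := fun w w' e => s w w' <| by
  rw [← inter_eq_left.2 (k w), ← Measure.restrict_restrict (m w),
    ← Measure.restrict_restrict (m w), e]

/-- enlarging a stopping set -/
theorem Stop.mono (h : Stop H) {H' : Cf E → Set E}
    (m : MeasurableSet {p : Cf E × E | p.2 ∈ H' p.1}) (k : ∀ w, H w ⊆ H' w) (s : St H H') :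
    Stop H' := ⟨m, s.mono h.ms k⟩

theorem stop_const (hS : MeasurableSet S) : Stop fun _ : Cf E => S :=
  ⟨measurable_snd hS, fun _ _ _ => rfl⟩

theorem Stop.st_res (h : Stop H) {β : Type*} {G : Cf E → β} (i : Inv G) :
    St H fun w => G (res (H w) w) := fun w w' e =>
  i _ _ (by rw [N_res (h.ms _), N_res (h.ms _), h.st w w' e, e])

theorem St.res_eq {β : Type*} {F : Cf E → β} (s : St H F) {w : Cf E} (m : MeasurableSet (H w)) :
    F (res (H w) w) = F w := s _ _ (by rw [N_res m, Measure.restrict_restrict m, inter_self])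

section pull

variable {E' : Type*} [MeasurableSpace E'] {g : E' → E}

theorem St.pull {β : Type*} {F : Cf E → β} (s : St H F) (m : ∀ w, MeasurableSet (H w))
    (hg : Measurable g) : St (fun v => g ⁻¹' H (mp g v)) fun v => F (mp g v) :=
  fun v v' e => s _ _ <| by
    rw [N_mp hg, N_mp hg, Measure.restrict_map hg (m _), Measure.restrict_map hg (m _), e]

theorem Stop.pull (h : Stop H) (hg : Measurable g) : Stop fun v => g ⁻¹' H (mp g v) :=
  ⟨(((meas_mp hg).comp measurable_fst).prodMk (hg.comp measurable_snd)) h.meas,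
    (h.st.pull h.ms hg).comp (g ⁻¹' ·)⟩

end pull

theorem Stop.meas_L (h : Stop H) (hf : Measurable f) :
    Measurable fun w => ∫⁻ x in H w, f x ∂N w := by
  simp only [← lintegral_indicator (h.ms _)]
  exact meas_lint measurable_id ((hf.comp measurable_snd).indicator h.meas)

theorem Stop.meas_rs (h : Stop H) :
    Measurable fun p : Cf E × Cf E => mer2 (res (H p.1) p.1, res (H p.1)ᶜ p.2) :=
  have m := (measurable_fst.fst.prodMk measurable_snd) h.meas
  meas_mer2.comp ((meas_res (H := fun p : Cf E × Cf E => H p.1) measurable_fst m).prodMk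
    (meas_res (H := fun p : Cf E × Cf E => (H p.1)ᶜ) measurable_snd m.compl))

theorem meas_nu {X : Type*} [MeasurableSpace X] {H : X → Set E} [SFinite ν]
    (h : MeasurableSet {p : X × E | p.2 ∈ H p.1}) (hf : Measurable f) :
    Measurable fun w => ∫⁻ x in H w, f x ∂ν := by
  simp only [fun w => (lintegral_indicator (μ := ν) (s := H w) (measurable_prodMk_left h) f).symm]
  exact ((hf.comp measurable_snd).indicator h).lintegral_prod_right'

theorem IsPPP.ne (h : IsPPP ν P) : Nonempty E :=
  have := h.prob
  (nonempty_of_isProbabilityMeasure P).map fun w => (w 0).1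

theorem cov_pt (hH : Stop H) (s : St H F) {w w' v : Cf E}
    (e : N v = N w' + (N w).restrict S) (h0 : N w' S = 0) :
    {v | N v (S ∩ H v) = 0}.indicator F v = {w | N w (S ∩ H w') = 0}.indicator (fun _ => F w') w := by
  have a : ∀ u, N w (S ∩ H u) = 0 → (N v).restrict (H u) = (N w').restrict (H u) := fun u k => by
    rw [e, Measure.restrict_add, Measure.restrict_restrict (hH.ms u), inter_comm,
      Measure.restrict_eq_zero.2 k, add_zero]
  have b : ∀ u, N v (S ∩ H u) = N w (S ∩ H u) := fun u => by
    rw [e, Measure.add_apply, measure_mono_null inter_subset_left h0, zero_add,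
      Measure.restrict_eq_self _ inter_subset_left]
  by_cases k : N w (S ∩ H w') = 0
  · rw [indicator_of_mem (s := {w | N w (S ∩ H w') = 0}) k, indicator_of_mem, s _ _ (a _ k).symm]
    rwa [mem_ofPred_eq, hH.st _ _ (a _ k).symm, b]
  · rw [indicator_of_notMem (s := {w | N w (S ∩ H w') = 0}) k, indicator_of_notMem]
    rw [mem_ofPred_eq, b]
    exact fun k' => k (hH.st _ _ (a _ k') ▸ k')

variable [StandardBorelSpace E] [SigmaFinite ν]

/-- **covariance**: the law of a stopping set on the event that it meets no point in `S` -/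
theorem IsPPP.cov (h : IsPPP ν P) (h' : IsPPP (ν.restrict Sᶜ) P') (hS : MeasurableSet S)
    (hH : Stop H) (hF : Measurable F) (s : St H F) :
    ∫⁻ w in {w | N w (S ∩ H w) = 0}, F w ∂P = ∫⁻ w, F w * ex (ν (S ∩ H w)) ∂P' := by
  have := h.prob
  have := h'.prob
  have m : MeasurableSet {w : Cf E | N w (S ∩ H w) = 0} :=
    meas_N (H := fun w => S ∩ H w) measurable_id ((measurable_snd hS).inter hH.meas)
      (measurableSet_singleton 0)
  have q := h'.mer2 (h.res hS)
  rw [Measure.restrict_compl_add_restrict hS] at q
  have := (h.res hS).prob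
  rw [← lintegral_indicator m, h.uniq q (hF.indicator m) fun w w' e => by
      simp only [indicator_apply, mem_ofPred_eq, e, s.inv _ _ e, hH.st.inv _ _ e],
    lintegral_map (hF.indicator m) meas_mer2]
  refine (lintegral_prod _ ((hF.indicator m).comp meas_mer2).aemeasurable).trans ?_
  refine lintegral_congr_ae ((h'.null hS (by simp [hS])).mono fun w' h0 => ?_)
  have k := hS.inter (hH.ms w')
  refine (lintegral_map (((hF.indicator m).comp meas_mer2).comp measurable_prodMk_left)
    (meas_res' hS)).trans ?_
  beta_reduce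
  rw [← h.void k, ← lintegral_indicator_const (s := {w | N w (S ∩ H w') = 0})
    (meas_N' k (measurableSet_singleton 0))]
  exact lintegral_congr fun w => cov_pt hH s (by rw [N_mer2, N_res hS]) h0

/-- **tilting** by an exponential functional of the points in a stopping set -/
theorem IsPPP.tilt (h : IsPPP ν P) (hf : Measurable f)
    (h' : IsPPP (ν.withDensity fun x => ex (f x)) P') (hH : Stop H) (hF : Measurable F)
    (s : St H F) : ∫⁻ w, F w * ex (∫⁻ x in H w, f x ∂N w) ∂P =
      ∫⁻ w, F w * ex (∫⁻ x in H w, 1 - ex (f x) ∂ν) ∂P' := by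
  have := h.prob
  have : SigmaFinite (ν.withDensity fun x => ex (f x)) :=
    SigmaFinite.withDensity_of_ne_top' fun _ => ex_ne_top _
  let q (x : E) : I := ⟨(ex (f x)).toReal, ENNReal.toReal_nonneg,
    ENNReal.toReal_le_of_le_ofReal zero_le_one (by simpa using ex_le _)⟩
  have hq : Measurable q := (meas_ex.comp hf).ennreal_toReal.subtype_mk
  let S : Set (E × I) := {p | q p.1 < p.2}
  have hS : MeasurableSet S := measurableSet_lt (hq.comp measurable_fst) measurable_snd
  have v1 : ∀ x, volume (Iic (q x)) = ex (f x) := fun x => by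
    rw [unitInterval.volume_Iic, ENNReal.ofReal_toReal (ex_ne_top _)]
  have v2 : ∀ x, volume (Ioi (q x)) = 1 - ex (f x) := fun x => by
    rw [← compl_Iic, prob_compl_eq_one_sub measurableSet_Iic, v1]
  have z := h.zip (volume : Measure I)
  have mf := meas_mp (E := E × I) measurable_fst
  have m1 : Measurable fun x => 1 - ex (f x) := by fun_prop
  have c := z.cov (z.res hS.compl) hS (hH.pull measurable_fst) (hF.comp mf)
    (s.pull hH.ms measurable_fst)
  have y := (z.res hS.compl).mp measurable_fst
  have e : ((ν.prod volume).restrict Sᶜ).map Prod.fst = ν.withDensity fun x => ex (f x) := by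
    ext A hA
    rw [Measure.map_apply measurable_fst hA, Measure.restrict_apply (measurable_fst hA),
      Measure.prod_apply ((measurable_fst hA).inter hS.compl), withDensity_apply _ hA,
      ← lintegral_indicator hA]
    refine lintegral_congr fun x => ?_
    by_cases k : x ∈ A
    · rw [indicator_of_mem k, ← v1]
      congr 1
      ext u
      simp [k, S]
    · rw [indicator_of_notMem k]
      convert measure_empty (μ := (volume : Measure I))
      ext u
      simp [k]
  have e' : ∀ w, (ν.prod volume) (S ∩ Prod.fst ⁻¹' H w) = ∫⁻ x in H w, 1 - ex (f x) ∂ν := fun w => by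
    rw [Measure.prod_apply (hS.inter (measurable_fst (hH.ms w))), ← lintegral_indicator (hH.ms w)]
    refine lintegral_congr fun x => ?_
    by_cases k : x ∈ H w
    · rw [indicator_of_mem k, ← v2]
      congr 1
      ext u
      simp [k, S]
    · rw [indicator_of_notMem k]
      convert measure_empty (μ := (volume : Measure I))
      ext u
      simp [k]
  have mG : Measurable fun w => F w * ex (∫⁻ x in H w, 1 - ex (f x) ∂ν) :=
    hF.mul (meas_ex.comp (meas_nu hH.meas m1))
  rw [e] at y
  simp only [e'] at c
  refine Eq.trans ?_ (c.trans ((lintegral_map mG mf).symm.trans (y.uniq h' mG fun w w' e => by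
    simp only [s.inv _ _ e, hH.st.inv _ _ e])))
  have hp := (hH.pull (measurable_fst (β := I))).meas
  have m : MeasurableSet {v : Cf (E × I) | N v (S ∩ Prod.fst ⁻¹' H (Poi.mp Prod.fst v)) = 0} :=
    meas_N (H := fun v => S ∩ Prod.fst ⁻¹' H (Poi.mp Prod.fst v)) measurable_id
      ((measurable_snd hS).inter hp) (measurableSet_singleton 0)
  rw [← lintegral_indicator m, lintegral_map ((hF.comp mf).indicator m) meas_zip]
  refine Eq.trans ?_ (lintegral_prod _ (((hF.comp mf).indicator m).comp meas_zip).aemeasurable).symm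
  refine lintegral_congr fun w => ?_
  have k := hS.inter (measurable_fst (hH.ms w))
  have mg : Measurable ((S ∩ Prod.fst ⁻¹' H w).indicator fun _ => (⊤ : ℝ≥0∞)) :=
    measurable_const.indicator k
  rw [← lintegral_indicator (hH.ms w), ← ex_zip volume mg (hf.indicator (hH.ms w)) fun x => ?_]
  · refine (lintegral_const_mul _ ((meas_ex.comp (meas_L mg)).comp
      (meas_zip.comp measurable_prodMk_left))).symm.trans (lintegral_congr fun u => ?_)
    simp only [Function.comp, lintegral_indicator_const k, ex_top_mul]
    simp only [indicator_apply, mem_ofPred_eq, Function.comp, show Poi.mp Prod.fst (Poi.zip (w, u)) = w from rfl, mul_ite, mul_one, mul_zero]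
  · by_cases k : x ∈ H w
    · rw [indicator_of_mem k, ← v1, ← lintegral_indicator_one measurableSet_Iic]
      refine lintegral_congr fun u => ?_
      by_cases j : u ≤ q x <;> simp [indicator, S, k, j, not_le.1, not_lt.2]
    · simp [indicator, k]

/-- resampling the points off a stopping set -/
theorem IsPPP.resample (h : IsPPP ν P) (h' : IsPPP ν P') (hH : Stop H) :
    IsPPP ν ((P.prod P').map fun p => Poi.mer2 (Poi.res (H p.1) p.1, Poi.res (H p.1)ᶜ p.2)) := by
  have := h.prob
  have := h'.prob
  have := h.ne
  have mR := hH.meas_rs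
  refine .of_map mR fun f hf => ?_
  have m1 : Measurable fun x => 1 - ex (f x) := by fun_prop
  obtain ⟨Q, hQ⟩ := exists_ppp (ν.withDensity fun x => ex (f x))
  have := hQ.prob
  have t := h.tilt hf hQ hH (meas_ex.comp (meas_nu (ν := ν) (H := fun w => (H w)ᶜ) hH.meas.compl m1))
    (hH.st.comp fun A => ex (∫⁻ x in Aᶜ, 1 - ex (f x) ∂ν))
  simp only [Function.comp, ← ex_add, add_comm, lintegral_add_compl _ (hH.ms _), lintegral_const,
    measure_univ, mul_one] at t
  refine (lintegral_prod _ ((meas_ex.comp (meas_L hf)).comp mR).aemeasurable).trans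
    (Eq.trans (lintegral_congr fun w => ?_) t)
  have r := (lintegral_map (meas_ex.comp (meas_L hf)) (meas_res' (hH.ms w).compl)).symm.trans
    ((h'.res (hH.ms w).compl).lap f hf)
  simp only [Function.comp, N_mer2, lintegral_add_measure, ex_add, N_res (hH.ms w), ← r]
  exact lintegral_const_mul _ ((meas_ex.comp (meas_L hf)).comp (meas_res' (hH.ms w).compl))

/-- **strong Markov property** -/
theorem IsPPP.markov (h : IsPPP ν P) (h' : IsPPP ν P') (hH : Stop H) {Φ : Cf E → Cf E → ℝ≥0∞}
    (hΦ : Measurable fun p : Cf E × Cf E => Φ p.1 p.2) (s : ∀ v, St H (Φ · v))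
    (i : ∀ w, Inv (Φ w)) : ∫⁻ w, Φ w (Poi.res (H w)ᶜ w) ∂P =
      ∫⁻ w, ∫⁻ w', Φ w (Poi.res (H w)ᶜ w') ∂P' ∂P := by
  have := h.prob
  have := h'.prob
  have mR := hH.meas_rs
  have mΘ : Measurable fun w => Φ w (Poi.res (H w)ᶜ w) := hΦ.comp
    (measurable_id.prodMk (meas_res (H := fun w => (H w)ᶜ) measurable_id hH.meas.compl))
  rw [h.uniq (h.resample h' hH) mΘ fun w w' e => by
    rw [hH.st.inv _ _ e]
    exact ((s _).inv _ _ e).trans
      (i _ _ _ (by rw [N_res (hH.ms _).compl, N_res (hH.ms _).compl, e]))]
  refine (lintegral_map mΘ mR).trans ((lintegral_prod _ (mΘ.comp mR).aemeasurable).trans ?_)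
  refine lintegral_congr fun w => lintegral_congr fun w' => ?_
  have k := hH.ms w
  have e : (N w).restrict (H w) =
      (N (Poi.mer2 (Poi.res (H w) w, Poi.res (H w)ᶜ w'))).restrict (H w) := by
    simp [N_mer2, N_res k, N_res k.compl, Measure.restrict_restrict k]
  simp only [Function.comp]
  rw [hH.st _ _ e]
  exact (s _ _ _ e).trans
    (i _ _ _ (by simp [N_mer2, N_res k, N_res k.compl, Measure.restrict_restrict k.compl]))

section indep

variable {ι : Type*} {B : ι → Set E}

theorem IsPPP.prod_eq (h : IsPPP ν P) (hB : ∀ j, MeasurableSet (B j))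
    (d : Pairwise (Function.onFun Disjoint B)) {F : ι → Cf E → ℝ≥0∞} (t : Finset ι)
    (hF : ∀ j ∈ t, Measurable (F j)) (s : ∀ j ∈ t, St (fun _ => B j) (F j)) :
    ∫⁻ w, ∏ j ∈ t, F j w ∂P = ∏ j ∈ t, ∫⁻ w, F j w ∂P := by
  have := h.prob
  induction t using Finset.induction_on with
  | empty => simp
  | insert a t ha ih =>
    rw [Finset.forall_mem_insert] at hF s
    have m := Finset.measurable_prod t hF.2
    have e : ∀ w, ∏ j ∈ t, F j (Poi.res (B a)ᶜ w) = ∏ j ∈ t, F j w := fun w =>
      Finset.prod_congr rfl fun j hj => s.2 j hj _ _ <| by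
        rw [N_res (hB a).compl, Measure.restrict_restrict (hB j), inter_eq_left.2
          (d (ne_of_mem_of_not_mem hj ha)).subset_compl_right]
    have := h.markov h (stop_const (hB a)) (Φ := fun w v => F a w * ∏ j ∈ t, F j v)
      ((hF.1.comp measurable_fst).mul (m.comp measurable_snd)) (fun v => s.1.comp (· * _))
      fun w v v' e => congrArg (F a w * ·) (Finset.prod_congr rfl fun j hj => (s.2 j hj).inv _ _ e)
    simp only [e, lintegral_const_mul _ m, lintegral_mul_const _ hF.1] at this
    simp only [Finset.prod_insert ha, this, ih hF.2 s.2]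

/-- functionals of the points in disjoint sets are independent -/
theorem IsPPP.iIndep (h : IsPPP ν P) (hB : ∀ j, MeasurableSet (B j))
    (d : Pairwise (Function.onFun Disjoint B)) {β : ι → Type*} [∀ j, MeasurableSpace (β j)]
    {F : ∀ j, Cf E → β j} (hF : ∀ j, Measurable (F j)) (s : ∀ j, St (fun _ => B j) (F j)) :
    iIndepFun F P := by
  refine iIndepFun_iff_measure_inter_preimage_eq_mul.2 fun t A hA => ?_
  have := h.prod_eq hB d (F := fun j => (F j ⁻¹' A j).indicator 1) t
    (fun j hj => measurable_one.indicator (hF j (hA j hj)))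
    fun j _ => (s j).comp ((A j).indicator 1)
  rw [Finset.prod_congr rfl fun j hj => lintegral_indicator_one (hF j (hA j hj))] at this
  rw [← this, ← lintegral_indicator_one (t.measurableSet_biInter fun j hj => hF j (hA j hj))]
  exact lintegral_congr fun w => by simp [indicator_apply, Finset.prod_ite_zero]

end indep

/-- the restrictions to countably many disjoint sets are independent -/
theorem IsPPP.indep (h : IsPPP ν P) {B : ℕ → Set E} (hB : ∀ j, MeasurableSet (B j))
    (d : Pairwise (Function.onFun Disjoint B)) {Ψ : (ℕ → Cf E) → ℝ≥0∞} (hΨ : Measurable Ψ)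
    (i : ∀ w w', (∀ j, N (w j) = N (w' j)) → Ψ w = Ψ w') :
    ∫⁻ w, Ψ (fun j => Poi.res (B j) w) ∂P =
      ∫⁻ w, Ψ (fun j => Poi.res (B j) (w j)) ∂Measure.infinitePi fun _ => P := by
  have := h.prob
  have U := MeasurableSet.iUnion hB
  have m : Measurable fun w => Ψ fun j => Poi.res (B j) w :=
    hΨ.comp (measurable_pi_lambda _ fun j => meas_res' (hB j))
  have m' : Measurable fun w : ℕ → Cf E => mer fun j => Poi.res (B j) (w j) :=
    meas_mer.comp (measurable_pi_lambda _ fun j => (meas_res' (hB j)).comp (measurable_pi_apply j))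
  have q : IsPPP (ν.restrict (⋃ j, B j)) ((Measure.infinitePi fun _ => P).map _) :=
    .of_map m' fun f hf => by
      simp only [N_mer, lintegral_sum_measure, Measure.restrict_iUnion d hB]
      exact ex_pi _ (f := fun j w => ∫⁻ x, f x ∂N (Poi.res (B j) w))
        (fun j => (meas_L hf).comp (meas_res' (hB j))) fun j =>
        (lintegral_map (meas_ex.comp (meas_L hf)) (meas_res' (hB j))).symm.trans
          ((h.res (hB j)).lap f hf)
  have := (h.res U).uniq q m fun w w' e => i _ _ fun j => by rw [N_res (hB j), N_res (hB j), e]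
  rw [lintegral_map m (meas_res' U), lintegral_map m m'] at this
  refine (lintegral_congr fun w => i _ _ fun j => ?_).trans
    (this.trans (lintegral_congr fun w => i _ _ fun j => ?_))
  · rw [N_res (hB j), N_res (hB j), N_res U, Measure.restrict_restrict (hB j),
      inter_eq_left.2 (subset_iUnion B j)]
  · ext A hA
    simp only [N_res (hB _), N_mer, Measure.restrict_sum _ (hB j), Measure.restrict_restrict (hB j),
      Measure.sum_apply _ hA]
    rw [tsum_eq_single j fun k hk => by simp [(d hk.symm).inter_eq], inter_self]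

end Vale.Agent.P155S.Poi
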