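import Vale.Agent.P155S.PoiC

/-!
# P155S: Poisson counts, enumerations, the formula of Campbell
-/

noncomputable section

open MeasureTheory ProbabilityTheory Set Filter Topology
open scoped ENNReal NNReal Classical

namespace Vale.Agent.P155S.Poi

variable {E : Type*} [MeasurableSpace E] {ν : Measure E} {P P' : Measure (Cf E)} {B : Set E}
  {f : E → ℝ≥0∞}

/-- the number of points in `B` -/
def ct (w : Cf E) (B : Set E) : ℕ∞ := {i | (w i).2 ∧ (w i).1 ∈ B}.encard

/-- all points present -/
def al (x : ℕ → E) : Cf E := fun i => (x i, True)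

/-- the enumeration of the points which are present -/
def cp (w : Cf E) : ℕ → E := fun n => (w (Nat.nth (fun i => (w i).2) n)).1

theorem N_ct (w : Cf E) (hB : MeasurableSet B) : N w B = ct w B := by
  rw [N_apply w hB, ct, ← ENNReal.tsum_set_one, tsum_subtype _ fun _ => (1 : ℝ≥0∞)]
  exact tsum_congr fun i => by simp [indicator_apply]

theorem meas_ct (hB : MeasurableSet B) : Measurable fun w : Cf E => ct w B :=
  measurable_encard.comp (measurable_set_iff.2 fun i => measurableSet_setOfPred.1
    ((meas_al measurable_id i).inter (meas_pt measurable_id i hB)))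

omit [MeasurableSpace E] in
theorem ct_al (x : ℕ → E) (B : Set E) : ct (al x) B = {n | x n ∈ B}.encard := by simp [ct, al]

omit [MeasurableSpace E] in
theorem pts_al (x : ℕ → E) : pts (al x) = range x := by simp [pts, al, range]

theorem meas_all : Measurable (al (E := E)) := by
  unfold al
  fun_prop

theorem meas_sInf : Measurable (sInf : Set ℕ → ℕ) := measurable_to_countable' fun i => by
  have : sInf ⁻¹' {i} = {s : Set ℕ | (i ∈ s ∧ ∀ j < i, j ∉ s) ∨ (i = 0 ∧ ∀ j, j ∉ s)} := by
    ext s
    rcases s.eq_empty_or_nonempty with rfl | h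
    · simp [eq_comm]
    · refine ⟨?_, ?_⟩
      · rintro rfl
        exact .inl ⟨Nat.sInf_mem h, fun j => Nat.notMem_of_lt_sInf⟩
      · rintro (⟨a, b⟩ | ⟨-, b⟩)
        · exact (Nat.sInf_le a).antisymm (not_lt.1 fun k => b _ k (Nat.sInf_mem h))
        · exact (b _ h.some_mem).elim
  rw [this]
  measurability

theorem meas_nth (n : ℕ) : Measurable fun p : ℕ → Prop => Nat.nth p n := by
  induction n using Nat.strong_induction_on with
  | _ n ih =>
    simp only [fun p => Nat.nth_eq_sInf p n]
    refine meas_sInf.comp (measurable_set_iff.2 fun i => (measurable_pi_apply i).and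
      (.forall fun k => ?_))
    by_cases hk : k < n
    · simpa [hk] using measurableSet_setOfPred.1 (ih k hk (measurableSet_Iio (a := i)))
    · simp [hk]

theorem meas_cp : Measurable (cp (E := E)) := measurable_pi_lambda _ fun n =>
  (measurable_from_prod_countable_left (f := fun p : Cf E × ℕ => (p.1 p.2).1)
    fun i => meas_pt measurable_id i).comp (measurable_id.prodMk ((meas_nth n).comp
      (measurable_pi_lambda _ fun i => (measurable_pi_apply i).snd)))

theorem N_cp {w : Cf E} (h : N w univ = ⊤) : N (al (cp w)) = N w := by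
  have i : {i | (w i).2}.Infinite := by
    rw [N_ct w .univ, ENat.toENNReal_eq_top, ct, encard_eq_top_iff] at h
    simpa using h
  ext B hB
  rw [N_ct _ hB, N_ct _ hB, ct_al, ct, ← (Nat.nth_injective i).encard_image]
  congr 2
  ext j
  refine ⟨?_, fun ⟨a, b⟩ => ?_⟩
  · rintro ⟨n, hn, rfl⟩
    exact ⟨Nat.nth_mem_of_infinite i n, hn⟩
  · obtain ⟨n, rfl⟩ := Nat.subset_range_nth (p := fun i => (w i).2) a
    exact ⟨n, b, rfl⟩

theorem IsPPP.inf (h : IsPPP ν P) (hB : MeasurableSet B) (e : ν B = ⊤) : ∀ᵐ w ∂P, N w B = ⊤ := by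
  have k := h.lap_ind hB 1
  rw [e, ENNReal.mul_top (by simpa [tsub_eq_zero_iff_le] using ex_anti zero_lt_one), ex_top] at k
  exact ((lintegral_eq_zero_iff (meas_ex.comp ((meas_N' hB).const_mul 1))).1 k).mono
    fun w hw => by simpa using hw

/-- a Poisson point process with infinite intensity is a sequence of points -/
theorem IsPPP.cp (h : IsPPP ν P) (e : ν univ = ⊤) : IsPPP ν (P.map fun w => al (cp w)) :=
  have := h.prob
  .of_map (meas_all.comp meas_cp) fun f hf => (lintegral_congr_ae ((h.inf .univ e).mono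
    fun w hw => by simp only [N_cp hw])).trans (h.lap f hf)

theorem ex_ct (a : ℝ≥0∞) (r : ℝ≥0) :
    ∫⁻ k : ℕ, ex (a * k) ∂poissonMeasure r = ex ((1 - ex a) * r) := by
  simp only [mul_comm a, ex_nat, ex_pois r (ex_le a)]

/-- the number of points in a set of finite measure is a Poisson variable -/
theorem IsPPP.law (h : IsPPP ν P) (hB : MeasurableSet B) (e : ν B ≠ ⊤) :
    P.map (N · B) = (poissonMeasure (ν B).toNNReal).map (↑) := by
  have := h.prob
  have m : Measurable fun (t : ℝ≥0∞) (_ : Unit) => t := by fun_prop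
  have k : (P.map (N · B)).map _ = ((poissonMeasure (ν B).toNNReal).map Nat.cast).map _ :=
    ext_ex fun l => by
      have c : Measurable fun x : Unit → ℝ≥0∞ => ex (l.map x).sum :=
        meas_ex.comp (continuous_list_sum l fun j _ => continuous_apply j).measurable
      rw [lintegral_map c m, lintegral_map c m]
      simp only [List.map_const', List.sum_replicate, nsmul_eq_mul]
      rw [lintegral_map (by fun_prop) (meas_N' hB), lintegral_map (by fun_prop) .of_discrete,
        h.lap_ind hB, ex_ct, ENNReal.coe_toNNReal e]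
  have := congrArg (Measure.map fun x => x ()) k
  rwa [Measure.map_map (by fun_prop) m, Measure.map_map (by fun_prop) m, Function.comp_def,
    Measure.map_id', Measure.map_id'] at this

theorem IsPPP.law_ct (h : IsPPP ν P) (hB : MeasurableSet B) (e : ν B ≠ ⊤) (k : ℕ) :
    P {w | ct w B = k} = poissonMeasure (ν B).toNNReal {k} := by
  have := congrArg (· {(k : ℝ≥0∞)}) (h.law hB e)
  simp only [Measure.map_apply (meas_N' hB) (measurableSet_singleton _),
    Measure.map_apply (f := ((↑) : ℕ → ℝ≥0∞)) .of_discrete (measurableSet_singleton _)] at this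
  convert this using 2 <;> ext
  · rw [mem_preimage, N_ct _ hB, ← ENat.toENNReal_coe, mem_singleton_iff, ENat.toENNReal_inj,
      mem_ofPred_eq]
  · simp

theorem IsPPP.indep_ct [StandardBorelSpace E] [SigmaFinite ν] (h : IsPPP ν P) {ι : Type*}
    {B : ι → Set E} (hB : ∀ j, MeasurableSet (B j)) (d : Pairwise (Function.onFun Disjoint B)) :
    iIndepFun (fun j w => ct w (B j)) P :=
  h.iIndep hB d (fun j => meas_ct (hB j)) fun j w w' e => ENat.toENNReal_inj.1 <| by
    rw [← N_ct _ (hB j), ← N_ct _ (hB j), ← Measure.restrict_apply_univ, ← e,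
      Measure.restrict_apply_univ]

theorem ex_law {Θ : Type*} [MeasurableSpace Θ] {μ : Measure Θ} [IsProbabilityMeasure μ]
    {c : Θ → ℕ∞} (m : Measurable c) {r : ℝ≥0} (law : ∀ k : ℕ, μ {ω | c ω = k} = poissonMeasure r {k})
    (a : ℝ≥0∞) : ∫⁻ ω, ex (a * c ω) ∂μ = ex ((1 - ex a) * r) := by
  have := Measure.isProbabilityMeasure_map (μ := μ) m.aemeasurable
  have k : (poissonMeasure r).map ((↑) : ℕ → ℕ∞) = μ.map c :=
    Measure.eq_of_le_of_isProbabilityMeasure (Measure.le_iff.2 fun s hs => by
      rw [← Measure.tsum_indicator_apply_singleton _ s hs,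
        ← Measure.tsum_indicator_apply_singleton _ s hs]
      refine ENNReal.tsum_le_tsum fun k => indicator_le_indicator ?_
      rw [Measure.map_apply .of_discrete (measurableSet_singleton _),
        Measure.map_apply m (measurableSet_singleton _)]
      cases k with
      | top => simp [preimage]
      | coe k => exact (le_of_eq (by congr 1; ext; simp)).trans (law k).ge)
  refine (lintegral_map (f := fun k : ℕ∞ => ex (a * k)) .of_discrete m).symm.trans ?_
  rw [← k, lintegral_map .of_discrete .of_discrete]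
  simp only [ENat.toENNReal_coe, ex_ct]

theorem smp_dec (g : SimpleFunc E ℝ≥0∞) {A : Set E} (hA : MeasurableSet A) :
    ∃ (m : ℕ) (c : Fin m → ℝ≥0∞) (B : Fin m → Set E), (∀ i, MeasurableSet (B i)) ∧ (∀ i, B i ⊆ A) ∧
      Pairwise (fun i j => Disjoint (B i) (B j)) ∧ ∀ (ρ : Measure E) (φ : ℝ≥0∞ → ℝ≥0∞),
        ∫⁻ x in A, φ (g x) ∂ρ = ∑ i, φ (c i) * ρ (B i) := by
  refine ⟨_, fun i => g.range.equivFin.symm i, fun i => g ⁻¹' {↑(g.range.equivFin.symm i)} ∩ A,
    fun i => (g.measurableSet_fiber _).inter hA, fun i => inter_subset_right, fun i j hij =>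
      (Disjoint.preimage _ (by simpa [Subtype.coe_inj] using hij)).mono inter_subset_left
        inter_subset_left, fun ρ φ => ?_⟩
  rw [g.range.equivFin.symm.sum_comp fun c => φ c * ρ (g ⁻¹' {↑c} ∩ A),
    Finset.sum_coe_sort g.range fun c => φ c * ρ (g ⁻¹' {c} ∩ A)]
  refine ((g.map φ).lintegral_eq_lintegral _).trans ((g.map_lintegral φ).trans ?_)
  simp only [Measure.restrict_apply (g.measurableSet_fiber _)]

theorem smp_lim (ν : Measure E) [SigmaFinite ν] (hf : Measurable f) (ρ : Measure E)
    {φ : ℝ≥0∞ → ℝ≥0∞} (c : Continuous φ) (mo : Monotone φ) : Tendsto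
      (fun n => ∫⁻ x in spanningSets ν n, φ (SimpleFunc.eapprox f n x) ∂ρ) atTop
      (𝓝 (∫⁻ x, φ (f x) ∂ρ)) := by
  have A := measurableSet_spanningSets ν
  simp only [← lintegral_indicator (A _)]
  refine lintegral_tendsto_of_tendsto_of_monotone (fun n => ((c.measurable.comp
    (SimpleFunc.eapprox f n).measurable).indicator (A n)).aemeasurable)
    (.of_forall fun x a b hab => (indicator_le_indicator_of_subset (monotone_spanningSets ν hab)
      (fun _ => zero_le) x).trans (indicator_le_indicator
        (mo (SimpleFunc.monotone_eapprox f hab x)))) (.of_forall fun x => ?_)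
  exact ((c.tendsto _).comp (SimpleFunc.tendsto_eapprox hf x)).congr'
    ((eventually_mem_spanningSets ν x).mono fun n hn => (indicator_of_mem hn _).symm)

/-- independent Poisson counts give a Poisson point process -/
theorem IsPPP.of_ct [SigmaFinite ν] {Θ : Type*} [MeasurableSpace Θ] {μ : Measure Θ}
    [IsProbabilityMeasure μ] {ξ : Θ → Cf E} (hξ : Measurable ξ)
    (law : ∀ B, MeasurableSet B → ν B ≠ ⊤ → ∀ k : ℕ,
      μ {ω | ct (ξ ω) B = k} = poissonMeasure (ν B).toNNReal {k})
    (ind : ∀ (m : ℕ) (B : Fin m → Set E), (∀ i, MeasurableSet (B i)) → (∀ i, ν (B i) ≠ ⊤) →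
      Pairwise (fun i j => Disjoint (B i) (B j)) → iIndepFun (fun i ω => ct (ξ ω) (B i)) μ) :
    IsPPP ν (μ.map ξ) := by
  refine .of_map hξ fun f hf => ?_
  have A := measurableSet_spanningSets ν
  refine tendsto_nhds_unique (lim_ex μ (fun n => ((stop_const (A n)).meas_L
    (SimpleFunc.eapprox f n).measurable).comp hξ) fun ω => smp_lim ν hf (N (ξ ω)) continuous_id
    monotone_id) (((cont_ex.tendsto _).comp (smp_lim ν hf ν (φ := fun t => 1 - ex t)
      ((ENNReal.continuous_sub_left ENNReal.one_ne_top).comp cont_ex)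
      fun _ _ h => tsub_le_tsub_left (ex_anti.antitone h) _)).congr fun n => ?_)
  obtain ⟨m, c, B, hB, s, d, l⟩ := smp_dec (SimpleFunc.eapprox f n) (A n)
  have e := fun i => ((measure_mono (s i)).trans_lt (measure_spanningSets_lt_top ν n)).ne
  have mc := fun i => (meas_ct (hB i)).comp hξ
  have := lintegral_prod_eq_prod_lintegral_of_indepFun Finset.univ _
    ((ind m B hB e d).comp (fun i (k : ℕ∞) => ex (c i * k)) fun _ => .of_discrete)
    fun i => (Measurable.of_discrete (f := fun k : ℕ∞ => ex (c i * k))).comp (mc i)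
  simp only [Function.comp, fun i => ex_law (c := fun ω => ct (ξ ω) (B i)) (mc i)
    (law _ (hB i) (e i)), ENNReal.coe_toNNReal (e _)] at this
  simp only [Function.comp, l _ fun t => t, l ν fun t => 1 - ex t, ex_sum, N_ct _ (hB _), this]

theorem pois_mean (r : ℝ≥0) : ∫⁻ k : ℕ, k ∂poissonMeasure r = r := by
  rw [lintegral_countable', tsum_eq_zero_add' ENNReal.summable, ← mul_one (r : ℝ≥0∞),
    ← measure_univ (μ := poissonMeasure r), ← lintegral_one, lintegral_countable',
    ← ENNReal.tsum_mul_left, Nat.cast_zero, zero_mul, zero_add]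
  refine tsum_congr fun k => ?_
  rw [poissonMeasure_singleton, poissonMeasure_singleton, one_mul, ← ENNReal.ofReal_coe_nnreal,
    ← ENNReal.ofReal_natCast, ← ENNReal.ofReal_mul (by positivity),
    ← ENNReal.ofReal_mul (by positivity), Nat.factorial_succ]
  congr 1
  push_cast
  field_simp
  ring

theorem meas_NN : Measurable (N (E := E)) :=
  Measure.measurable_of_measurable_coe _ fun _ hs => meas_N' hs

theorem IsPPP.bind [SigmaFinite ν] (h : IsPPP ν P) : P.bind N = ν := by
  refine (Measure.ext_iff_of_iUnion_eq_univ (iUnion_spanningSets ν)).2 fun n => ?_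
  ext B hB
  have m := hB.inter (measurableSet_spanningSets ν n)
  have e := ((measure_mono (inter_subset_right (s := B))).trans_lt
    (measure_spanningSets_lt_top ν n)).ne
  rw [Measure.restrict_apply hB, Measure.restrict_apply hB,
    Measure.bind_apply m meas_NN.aemeasurable]
  refine (lintegral_map measurable_id (meas_N' m)).symm.trans ?_
  rw [h.law m e, lintegral_map measurable_id .of_discrete]
  exact (pois_mean _).trans (ENNReal.coe_toNNReal e)

/-- **Campbell** -/
theorem IsPPP.campbell [SigmaFinite ν] (h : IsPPP ν P) (hf : Measurable f) :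
    ∫⁻ w, ∫⁻ x, f x ∂N w ∂P = ∫⁻ x, f x ∂ν := by
  rw [← Measure.lintegral_bind meas_NN.aemeasurable hf.aemeasurable, h.bind]

end Vale.Agent.P155S.Poi
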