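import Vale.Agent.P155.EX.Log

/-!
# P155: a path which turns around a point separates it from infinity
-/

set_option linter.all false

namespace Vale.Agent.P155S.Reg

open Set Complex Vale.Agent.P155.EX.Top Topology Filter

theorem log_rot {w : ℂ} (h : 0 < w.re) (h' : 0 < (w / I).re) :
    log w = log (w / I) + Real.pi / 2 * I := by
  have w0 : w ≠ 0 := fun e => by simp [e] at h
  have a2 := abs_lt.1 (abs_arg_lt_pi_div_two_iff.2 (.inl h'))
  have := Real.pi_pos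
  refine exp_inj_of_neg_pi_lt_of_le_pi (neg_pi_lt_log_im w) (log_im_le_pi w) ?_ ?_ ?_
  · simp only [add_im, log_im]
    norm_num
    simp only [div_I] at a2
    linarith [a2.1]
  · simp only [add_im, log_im]
    norm_num
    simp only [div_I] at a2
    linarith [a2.2]
  · rw [exp_add, exp_log w0, exp_log (div_ne_zero w0 I_ne_zero), exp_pi_div_two_mul_I,
      div_mul_cancel₀ _ I_ne_zero]

/-- no logarithm on four sets which turn around the origin -/
theorem log4 {X : Type*} [TopologicalSpace X] {K : Set X} {f : X → ℂ} (h : LogOn K f)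
    (S : ℕ → Set X) (hK : ∀ j < 4, S j ⊆ K) (hS : ∀ j < 4, IsPreconnected (S j))
    (hf : ∀ j < 4, ∀ x ∈ S j, 0 < (f x / I ^ j).re) (h0 : (S 0 ∩ S 1).Nonempty)
    (h1 : (S 1 ∩ S 2).Nonempty) (h2 : (S 2 ∩ S 3).Nonempty) (h3 : (S 3 ∩ S 0).Nonempty) : False := by
  have hc := h.continuousOn
  obtain ⟨F, hF, hF'⟩ := h
  have key : ∀ j < 4, ∀ x ∈ S j, ∀ y ∈ S j,
      F x - log (f x / I ^ j) = F y - log (f y / I ^ j) := fun j hj x hx y hy => by
    have n : I ^ j ≠ 0 := pow_ne_zero _ I_ne_zero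
    have := log_diff_const (hS j hj) (hF.mono (hK j hj))
      (G := fun x => log (f x / I ^ j) + log (I ^ j))
      ((((hc.mono (hK j hj)).div_const _).clog fun x hx => .inl (hf j hj x hx)).add
        continuousOn_const)
      (fun x hx => by
        have : f x / I ^ j ≠ 0 := fun e => by simpa [e] using hf j hj x hx
        rw [hF' x (hK j hj hx), exp_add, exp_log this, exp_log n, div_mul_cancel₀ _ n]) hx hy
    linear_combination this
  have rot : ∀ j x, 0 < (f x / I ^ j).re → 0 < (f x / I ^ (j + 1)).re →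
      log (f x / I ^ j) = log (f x / I ^ (j + 1)) + Real.pi / 2 * I := fun j x a b => by
    rw [pow_succ, ← div_div] at b ⊢
    exact log_rot a b
  obtain ⟨x0, a0, b0⟩ := h0
  obtain ⟨x1, a1, b1⟩ := h1
  obtain ⟨x2, a2, b2⟩ := h2
  obtain ⟨x3, a3, b3⟩ := h3
  have r0 := rot 0 x0 (hf 0 (by omega) _ a0) (hf 1 (by omega) _ b0)
  have r1 := rot 1 x1 (hf 1 (by omega) _ a1) (hf 2 (by omega) _ b1)
  have r2 := rot 2 x2 (hf 2 (by omega) _ a2) (hf 3 (by omega) _ b2)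
  have r3 := rot 3 x3 (hf 3 (by omega) _ a3) (by simpa using hf 0 (by omega) _ b3)
  have k0 := key 0 (by omega) _ a0 _ b3
  have k1 := key 1 (by omega) _ a1 _ b0
  have k2 := key 2 (by omega) _ a2 _ b1
  have k3 := key 3 (by omega) _ a3 _ b2
  have e : I ^ (3 + 1) = I ^ 0 := by simp
  rw [e] at r3
  refine two_pi_I_ne_zero ?_
  simp only [Nat.reduceAdd] at r0 r1 r2
  linear_combination -k0 - k1 - k2 - k3 - r0 - r1 - r2 - r3

theorem re_div (z : ℂ) : (z / I ^ 0).re = z.re ∧ (z / I ^ 1).re = z.im ∧ (z / I ^ 2).re = -z.re ∧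
    (z / I ^ 3).re = -z.im := by
  refine ⟨by simp, by simp, by simp [div_neg], ?_⟩
  rw [pow_succ, I_sq]
  simp [div_neg]

theorem lt4 {P : ℕ → Prop} (h0 : P 0) (h1 : P 1) (h2 : P 2) (h3 : P 3) : ∀ j < 4, P j := by
  intro j hj
  interval_cases j <;> assumption

/-- a horizontal and a vertical crossing meet -/
theorem cross {α β : ℝ → ℂ} (hα : Continuous α) (hβ : Continuous β) {a b c d : ℝ} (hab : a ≤ b)
    (hcd : c ≤ d) (h0 : ∀ t ∈ Icc c d, (β t).re < (α a).re) (h1 : ∀ s ∈ Icc a b, (β c).im < (α s).im)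
    (h2 : ∀ t ∈ Icc c d, (α b).re < (β t).re) (h3 : ∀ s ∈ Icc a b, (α s).im < (β d).im) :
    ∃ s ∈ Icc a b, ∃ t ∈ Icc c d, α s = β t := by
  by_contra hn
  push Not at hn
  have hl : LogOn (Icc a b ×ˢ Icc c d) fun q : ℝ × ℝ => α q.1 - β q.2 :=
    hasLogOn_of_convex ((convex_Icc a b).prod (convex_Icc c d)) _ (by fun_prop)
      fun q hq => sub_ne_zero.2 (hn _ hq.1 _ hq.2)
  have la := left_mem_Icc.2 hab
  have lb := right_mem_Icc.2 hab
  have lc := left_mem_Icc.2 hcd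
  have ld := right_mem_Icc.2 hcd
  refine log4 hl (fun j => if j = 0 then {a} ×ˢ Icc c d else if j = 1 then Icc a b ×ˢ {c}
    else if j = 2 then {b} ×ˢ Icc c d else Icc a b ×ˢ {d}) (lt4 ?_ ?_ ?_ ?_) (lt4 ?_ ?_ ?_ ?_)
    (lt4 ?_ ?_ ?_ ?_) ⟨(a, c), ?_⟩ ⟨(b, c), ?_⟩ ⟨(b, d), ?_⟩ ⟨(a, d), ?_⟩
  · exact prod_mono (singleton_subset_iff.2 la) subset_rfl
  · exact prod_mono subset_rfl (singleton_subset_iff.2 lc)
  · exact prod_mono (singleton_subset_iff.2 lb) subset_rfl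
  · exact prod_mono subset_rfl (singleton_subset_iff.2 ld)
  · exact isPreconnected_singleton.prod isPreconnected_Icc
  · exact isPreconnected_Icc.prod isPreconnected_singleton
  · exact isPreconnected_singleton.prod isPreconnected_Icc
  · exact isPreconnected_Icc.prod isPreconnected_singleton
  · rintro ⟨s, t⟩ ⟨rfl, ht⟩
    simpa using h0 t ht
  · rintro ⟨s, t⟩ ⟨hs, rfl⟩
    rw [(re_div _).2.1]
    simpa using h1 s hs
  · rintro ⟨s, t⟩ ⟨rfl, ht⟩
    rw [(re_div _).2.2.1]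
    simpa using h2 t ht
  · rintro ⟨s, t⟩ ⟨hs, rfl⟩
    rw [(re_div _).2.2.2]
    simpa using h3 s hs
  all_goals simp [hab, hcd]

/-- logarithms of `z - u` along a preconnected set of points `u` -/
theorem logOn_sub {K U : Set ℂ} (hK : IsClosed K) (hU : IsPreconnected U) (hd : ∀ u ∈ U, u ∉ K)
    {u v : ℂ} (hu : u ∈ U) (hv : v ∈ U) (h : LogOn K fun z => z - u) : LogOn K fun z => z - v := by
  refine hU.induction₂' (fun u v => (LogOn K fun z => z - u) → LogOn K fun z => z - v)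
    (fun x hx => ?_) (fun _ _ _ _ _ _ a b c => b (a c)) hu hv h
  obtain ⟨e, e0, he⟩ := Metric.isOpen_iff.1 hK.isOpen_compl x (hd x hx)
  filter_upwards [mem_nhdsWithin_of_mem_nhds (Metric.ball_mem_nhds x e0)] with y hy
  have n : ∀ z ∈ K, z - x ≠ 0 := fun z hz => sub_ne_zero.2 fun e => hd x hx (e ▸ hz)
  have hl : LogOn K fun z => (z - y) / (z - x) := logOn_of_norm_sub_one_lt
    ((continuousOn_id.sub continuousOn_const).div (continuousOn_id.sub continuousOn_const) n)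
    fun z hz => by
      rw [div_sub_one (n z hz), norm_div, div_lt_one (norm_pos_iff.2 (n z hz))]
      have h1 : ¬ dist z x < e := fun h => he h hz
      have h2 : dist y x < e := hy
      rw [dist_eq_norm] at h1 h2
      rw [show z - y - (z - x) = -(y - x) by ring, norm_neg]
      linarith
  refine ⟨fun h => (h.mul hl).congr fun z hz => (mul_div_cancel₀ _ (n z hz)).symm, fun h =>
    (h.div hl).congr fun z hz => ?_⟩
  rw [div_div_cancel₀ (h.ne_zero hz)]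

/-- a path which turns around `a` separates the points near `a` from infinity -/
theorem sep {γ : ℝ → ℂ} (hγ : Continuous γ) {t₁ t₂ t₃ t₄ t₅ l m R : ℝ} {a : ℂ} (o₁ : t₁ ≤ t₂)
    (o₂ : t₂ ≤ t₃) (o₃ : t₃ ≤ t₄) (o₄ : t₄ ≤ t₅)
    (h₁ : ∀ s ∈ Icc t₁ t₂, l < (γ s - a).im ∧ (γ s - a).im < m)
    (h₂ : ∀ s ∈ Icc t₂ t₃, (γ s - a).re < -l) (h₃ : ∀ s ∈ Icc t₃ t₄, (γ s - a).im < -l)
    (h₄ : ∀ s ∈ Icc t₄ t₅, l < (γ s - a).re ∧ (γ s - a).re < m) (e₁ : m < (γ t₁ - a).re)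
    (e₅ : m < (γ t₅ - a).im) (hR : ∀ s ∈ Icc t₁ t₅, ‖γ s - a‖ ≤ R) {U : Set ℂ}
    (hU : IsPreconnected U) {u v : ℂ} (hu : u ∈ U) (hv : v ∈ U) (hu' : R < ‖u - a‖)
    (hv' : ‖v - a‖ ≤ l) : ∃ s ∈ Icc t₁ t₅, γ s ∈ U := by
  by_contra hn
  push Not at hn
  have l0 : 0 ≤ l := (norm_nonneg _).trans hv'
  have u0 : a - u ≠ 0 := fun e => by
    rw [norm_sub_rev, e, norm_zero] at hu'
    linarith [norm_nonneg (γ t₁ - a), hR t₁ ⟨le_rfl, by linarith⟩]
  have hl : LogOn (γ '' Icc t₁ t₅) fun z => z - u := by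
    refine ((logOn_of_norm_sub_one_lt (f := fun z => (z - u) / (a - u)) (by fun_prop) ?_).mul
      (logOn_const u0)).congr fun z _ => (div_mul_cancel₀ _ u0).symm
    rintro _ ⟨s, hs, rfl⟩
    rw [div_sub_one u0, norm_div, div_lt_one (norm_pos_iff.2 u0), sub_sub_sub_cancel_right,
      norm_sub_rev a]
    exact (hR s hs).trans_lt hu'
  have hl' := logOn_sub (isCompact_Icc.image hγ).isClosed hU
    (fun u hu ⟨s, hs, e⟩ => hn s hs (e ▸ hu)) hu hv hl
  have r1 := abs_le.1 ((abs_re_le_norm _).trans hv')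
  have r2 := abs_le.1 ((abs_im_le_norm _).trans hv')
  simp only [sub_re, sub_im] at *
  obtain ⟨s, hs, t, ht, e⟩ := cross hγ hγ o₁ o₄ (fun t ht => by linarith [(h₄ t ht).2])
    (fun s hs => by linarith [(h₁ s hs).1, h₃ t₄ ⟨o₃, le_rfl⟩])
    (fun t ht => by linarith [(h₄ t ht).1, h₂ t₂ ⟨le_rfl, o₂⟩]) fun s hs => by linarith [(h₁ s hs).2]
  have pc : ∀ a b : ℝ, IsPreconnected (γ '' Icc a b) := fun a b =>
    isPreconnected_Icc.image _ hγ.continuousOn
  refine log4 hl' (fun j => γ '' (if j = 0 then Icc t₄ t₅ else if j = 1 then Icc t₁ t₂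
    else if j = 2 then Icc t₂ t₃ else Icc t₃ t₄)) (lt4 ?_ ?_ ?_ ?_)
    (lt4 (pc _ _) (pc _ _) (pc _ _) (pc _ _)) (lt4 ?_ ?_ ?_ ?_) ⟨γ s, ⟨t, ht, e.symm⟩, s, hs, rfl⟩
    ⟨γ t₂, ⟨_, ⟨o₁, le_rfl⟩, rfl⟩, _, ⟨le_rfl, o₂⟩, rfl⟩
    ⟨γ t₃, ⟨_, ⟨o₂, le_rfl⟩, rfl⟩, _, ⟨le_rfl, o₃⟩, rfl⟩
    ⟨γ t₄, ⟨_, ⟨o₃, le_rfl⟩, rfl⟩, _, ⟨le_rfl, o₄⟩, rfl⟩
  · exact image_mono (Icc_subset_Icc (by linarith) le_rfl)
  · exact image_mono (Icc_subset_Icc le_rfl (by linarith))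
  · exact image_mono (Icc_subset_Icc o₁ (by linarith))
  · exact image_mono (Icc_subset_Icc (by linarith) o₄)
  · rintro _ ⟨s, hs, rfl⟩
    rw [(re_div _).1, sub_re]
    linarith [(h₄ s hs).1]
  · rintro _ ⟨s, hs, rfl⟩
    rw [(re_div _).2.1, sub_im]
    linarith [(h₁ s hs).1]
  · rintro _ ⟨s, hs, rfl⟩
    rw [(re_div _).2.2.1, sub_re]
    linarith [h₂ s hs]
  · rintro _ ⟨s, hs, rfl⟩
    rw [(re_div _).2.2.2, sub_im]
    linarith [h₃ s hs]

end Vale.Agent.P155S.Reg
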