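import Vale.Agent.P155B.Br
import Vale.Agent.P155S.RegT

/-!
# P155: Brownian motion follows a polygon with positive probability
-/

set_option linter.all false

noncomputable section

namespace Vale.Agent.P155S.Reg

open MeasureTheory Set Filter Topology Vale.Agent.P155.BL
open scoped NNReal ENNReal

variable {W : Measure Pa} {A B : Set Pr} {s r d e : ℝ}

theorem m_bm (x : ℂ) : Measurable (bm x) := by fun_prop

theorem m_sft (s : ℝ) : Measurable (sft s) := by fun_prop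

/-- the event depends only on the path on `[0, s]` -/
def Dp (s : ℝ) (A : Set Pr) : Prop :=
  ∀ γ γ' : Pr, (∀ t ∈ Icc 0 s, γ t = γ' t) → γ ∈ A → γ' ∈ A

/-- the event depends only on the increments of the path on `[0, s]` -/
def Di (s : ℝ) (A : Set Pr) : Prop :=
  ∀ γ γ' : Pr, (∀ t ∈ Icc 0 s, γ t - γ 0 = γ' t - γ' 0) → γ ∈ A → γ' ∈ A

theorem Di.dp (h : Di s A) (hs : 0 ≤ s) : Dp s A := fun γ γ' e =>
  h γ γ' fun t ht => by rw [e t ht, e 0 ⟨le_rfl, hs⟩]

theorem Dp.mono (h : Dp s A) (e : s ≤ r) : Dp r A := fun γ γ' a =>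
  h γ γ' fun t ht => a t ⟨ht.1, ht.2.trans e⟩

theorem Di.compl (h : Di s A) : Di s Aᶜ := fun γ γ' e a b => a (h γ' γ (fun t ht => (e t ht).symm) b)

theorem Dp.stp (h : Dp s A) (γ : Pr) : stp s γ ∈ A ↔ γ ∈ A :=
  ⟨h _ _ fun t ht => congrArg γ (min_eq_left ht.2),
    h _ _ fun t ht => (congrArg γ (min_eq_left ht.2)).symm⟩

theorem Di.bm (h : Di s A) (x : ℂ) : bm x ⁻¹' A = bm 0 ⁻¹' A :=
  Set.ext fun ω => ⟨h _ _ fun t _ => by simp [Vale.Agent.P155.BL.bm],
    h _ _ fun t _ => by simp [Vale.Agent.P155.BL.bm]⟩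

theorem sft_of (γ : Pr) {t : ℝ} (ht : 0 ≤ t) : sft s γ t = γ (s + t) :=
  congrArg (fun a => γ (s + a)) (max_eq_left ht)

theorem Di.sft (h : Di r B) (hs : 0 ≤ s) (hr : 0 ≤ r) : Di (s + r) (sft s ⁻¹' B) := fun γ γ' e =>
  h _ _ fun t ht => by
    rw [sft_of _ ht.1, sft_of _ ht.1, sft_of _ le_rfl, sft_of _ le_rfl]
    linear_combination e (s + t) ⟨by linarith [ht.1], by linarith [ht.2]⟩ -
      e (s + 0) ⟨by linarith, by linarith⟩

/-- the Markov property for events -/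
theorem mk (hW : IsWiener W) (hs : 0 ≤ s) (mA : MeasurableSet A) (mB : MeasurableSet B)
    (hA : Dp s A) (hB : Di r B) (x : ℂ) :
    W (bm x ⁻¹' (A ∩ sft s ⁻¹' B)) = W (bm x ⁻¹' A) * W (bm 0 ⁻¹' B) := by
  have h := hW.markov hs x (H := (A ×ˢ B).indicator 1) (measurable_one.indicator (mA.prod mB))
  rw [← lintegral_indicator_one (m_bm x (mA.inter (m_sft s mB))),
    ← lintegral_indicator_one (m_bm x mA), ← lintegral_mul_const _
      (measurable_one.indicator (m_bm x mA))]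
  convert h using 3 with ω ω
  · by_cases h1 : bm x ω ∈ A <;> by_cases h2 : sft s (bm x ω) ∈ B <;> simp [indicator, hA.stp, h1, h2]
  · rw [← hB.bm (bm x ω s), ← lintegral_indicator_one (m_bm _ mB), ← lintegral_const_mul _
      (measurable_one.indicator (m_bm _ mB))]
    congr 1 with ω'
    by_cases h1 : bm x ω ∈ A <;> by_cases h2 : bm (bm x ω s) ω' ∈ B <;> simp [indicator, hA.stp, h1, h2]

/-- the path follows the segment `[0, v]` -/
def Seg (v : ℂ) (d e : ℝ) : Set Pr := {γ | ∀ s ∈ Icc 0 d, ‖γ s - γ 0 - (s / d : ℝ) * v‖ ≤ e}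

theorem seg_closed (v : ℂ) (d e : ℝ) : IsClosed (Seg v d e) := by
  simp only [Seg, setOf_forall]
  exact isClosed_iInter fun s => isClosed_iInter fun _ => isClosed_le (by fun_prop) continuous_const

theorem seg_di (v : ℂ) (d e : ℝ) : Di d (Seg v d e) := fun _ _ a b s hs => a s hs ▸ b s hs

theorem small (hW : IsWiener W) (he : 0 < e) (x : ℂ) :
    Tendsto (fun m : ℕ => W (bm x ⁻¹' (Seg 0 (1 / (m + 1)) e)ᶜ)) atTop (𝓝 0) := by
  have := hW.prob
  have h := tendsto_measure_iInter_atTop (μ := W)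
    (s := fun m : ℕ => bm x ⁻¹' (Seg 0 (1 / (m + 1)) e)ᶜ)
    (fun m => (m_bm x (seg_closed _ _ _).measurableSet.compl).nullMeasurableSet)
    (fun m n hmn ω h h' => h fun s hs => by
      simpa using h' s ⟨hs.1, hs.2.trans (Nat.one_div_le_one_div hmn)⟩) ⟨0, measure_ne_top _ _⟩
  rw [iInter_eq_empty_iff.2 fun ω => ?_, measure_empty] at h
  · exact h
  obtain ⟨δ, δ0, hδ⟩ := Metric.continuousAt_iff.1 ((bm x ω).continuous.continuousAt (x := 0)) e he
  obtain ⟨m, hm⟩ := exists_nat_one_div_lt δ0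
  refine ⟨m, fun h => h fun s hs => ?_⟩
  simpa [dist_eq_norm] using (hδ (x := s) (by
    rw [Real.dist_0_eq_abs, abs_of_nonneg hs.1]
    exact hs.2.trans_lt hm)).le

theorem seg_pos (hW : IsWiener W) (hd : 0 < d) (he : 0 < e) (h : W (bm 0 ⁻¹' Seg 0 d e) ≠ 0) (v : ℂ) :
    W (bm 0 ⁻¹' Seg v d (3 * e)) ≠ 0 := by
  have m := (seg_closed v d (3 * e)).measurableSet
  have h1 := hW.endpt hd 0 (F := (Seg v d (3 * e)).indicator 1) (measurable_one.indicator m)
  have h2 : ∫⁻ y, (Metric.ball v e).indicator (fun y => hk d y * W (bm 0 ⁻¹' Seg 0 d e)) y ≤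
      W (bm 0 ⁻¹' Seg v d (3 * e)) := by
    rw [← lintegral_indicator_one (m_bm 0 m)]
    refine le_trans (lintegral_mono fun y => ?_) (h1.symm.trans_le (lintegral_mono fun ω => ?_))
    · by_cases hy : y ∈ Metric.ball v e
      swap
      · simp [hy]
      rw [indicator_of_mem hy]
      rw [lintegral_indicator_one m, Wb, Measure.smul_apply, Measure.map_apply (by fun_prop) m,
        sub_zero]
      refine mul_le_mul_right (measure_mono fun ω hω s hs => ?_) _
      have a1 := hω s hs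
      have a2 := hω d ⟨hd.le, le_rfl⟩
      have a3 : ‖y - v‖ < e := mem_ball_iff_norm.1 hy
      have a4 : ‖((s / d : ℝ) : ℂ)‖ ≤ 1 := by
        rw [Complex.norm_real, Real.norm_of_nonneg (div_nonneg hs.1 hd.le)]
        exact div_le_one_of_le₀ hs.2 hd.le
      have e : br d 0 y ω s - br d 0 y ω 0 - (s / d : ℝ) * v = bm 0 ω s - bm 0 ω 0 +
          (s / d : ℝ) * (y - v - (bm 0 ω d - bm 0 ω 0)) := by
        simp [br, fr, min_eq_left hs.2, hs.1, hd.le, bm]
        ring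
      rw [mul_zero, sub_zero] at a1 a2
      rw [e]
      refine (norm_add_le _ _).trans ?_
      rw [norm_mul]
      nlinarith [norm_sub_le (y - v) (bm 0 ω d - bm 0 ω 0),
        norm_nonneg (y - v - (bm 0 ω d - bm 0 ω 0))]
    · by_cases h1 : bm 0 ω ∈ Seg v d (3 * e) <;> simp [indicator, ((seg_di _ _ _).dp hd.le).stp, h1]
  refine (lt_of_lt_of_le ((lintegral_pos_iff_support ((by fun_prop : Measurable fun y => hk d y * W (bm 0 ⁻¹' Seg 0 d e)).indicator
    measurableSet_ball)).2 (lt_of_lt_of_le (Metric.measure_ball_pos _ v he)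
      (measure_mono fun y hy => ?_))) h2).ne'
  rw [Function.mem_support, indicator_of_mem hy]
  exact mul_ne_zero (ENNReal.ofReal_pos.2 (by positivity)).ne' h

/-- the path follows the polygon with the sides `v 0, …, v (n - 1)` -/
def Ch (v : ℕ → ℂ) (n : ℕ) (d e : ℝ) : Set Pr := ⋂ j < n, sft (j * d) ⁻¹' Seg (v j) d e

theorem ch_meas (v : ℕ → ℂ) (n : ℕ) (d e : ℝ) : MeasurableSet (Ch v n d e) :=
  .iInter fun _ => .iInter fun _ => m_sft _ (seg_closed _ _ _).measurableSet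

theorem ch_di (v : ℕ → ℂ) (n : ℕ) (hd : 0 ≤ d) (e : ℝ) : Di (n * d) (Ch v n d e) := fun γ γ' a b =>
  mem_iInter₂.2 fun j hj => (seg_di (v j) d e).sft (by positivity) hd γ γ' (fun t ht => a t ⟨ht.1,
    ht.2.trans (by nlinarith [(by exact_mod_cast hj : (j : ℝ) + 1 ≤ n)])⟩) (mem_iInter₂.1 b j hj)

theorem ch_pos (hW : IsWiener W) (hd : 0 ≤ d) (h : ∀ v, W (bm 0 ⁻¹' Seg v d e) ≠ 0) (v : ℕ → ℂ)
    (n : ℕ) : W (bm 0 ⁻¹' Ch v n d e) ≠ 0 := by
  have := hW.prob
  induction n with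
  | zero => simp [Ch]
  | succ n ih =>
    rw [Ch, biInter_lt_succ, ← Ch, mk hW (by positivity) (ch_meas _ _ _ _)
      (seg_closed _ _ _).measurableSet ((ch_di v n hd e).dp (by positivity)) (seg_di _ _ _)]
    exact mul_ne_zero ih (h _)

theorem ch_scale (hW : IsWiener W) (hd : 0 < d) {l : ℝ} (hl : 0 < l) (v : ℕ → ℂ) (n : ℕ) :
    W (bm 0 ⁻¹' Ch v n d e) ≤ W (bm 0 ⁻¹' Ch (fun j => l * v j) n (l ^ 2 * d) (l * e)) := by
  conv_rhs => rw [← hW.scale (c := l) (by exact_mod_cast hl.ne')]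
  refine le_trans (measure_mono fun ω hω => ?_)
    (Measure.le_map_apply (by fun_prop) _)
  refine mem_iInter₂.2 fun j hj s hs => ?_
  have key : ∀ t : ℝ, 0 ≤ t → bm 0 (scl l ω) (l ^ 2 * t) = l * bm 0 ω t := fun t ht => by
    have : (l ^ 2 * t).toNNReal / ‖(l : ℂ)‖₊ ^ 2 = t.toNNReal := NNReal.eq (by
      simp [max_eq_left ht, max_eq_left (show 0 ≤ l ^ 2 * t by positivity), abs_of_pos hl]
      field_simp)
    show 0 + (l * ω ((l ^ 2 * t).toNNReal / ‖(l : ℂ)‖₊ ^ 2) - l * ω (0 / ‖(l : ℂ)‖₊ ^ 2)) =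
      l * (0 + (ω t.toNNReal - ω 0))
    rw [this, zero_div]
    ring
  have h := mem_iInter₂.1 hω j hj (s / l ^ 2) ⟨div_nonneg hs.1 (by positivity), by
    rw [div_le_iff₀' (by positivity)]
    exact hs.2⟩
  rw [sft_of _ (div_nonneg hs.1 (by positivity)), sft_of _ le_rfl] at h
  rw [sft_of _ hs.1, sft_of _ le_rfl,
    show j * (l ^ 2 * d) + s = l ^ 2 * (j * d + s / l ^ 2) by field_simp,
    show j * (l ^ 2 * d) + 0 = l ^ 2 * (j * d + 0) by ring, key _ (by have := hs.1; positivity),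
    key _ (by positivity), mul_left_comm, ← mul_sub, ← mul_sub, norm_mul, Complex.norm_real,
    Real.norm_of_nonneg hl.le, ← div_div]
  exact mul_le_mul_of_nonneg_left h hl.le

theorem exists_ch (hW : IsWiener W) (he : 0 < e) (v : ℕ → ℂ) (n : ℕ) :
    ∃ d > 0, ∃ q < 1, ∀ l : ℝ, 0 < l →
      W (bm 0 ⁻¹' (Ch (fun j => l * v j) n (l ^ 2 * d) (l * e))ᶜ) ≤ q := by
  have := hW.prob
  obtain ⟨m, hm⟩ := ((small hW (show 0 < e / 3 by positivity) 0).eventually_lt_const one_pos).exists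
  have d0 : (0 : ℝ) < 1 / (m + 1) := by positivity
  have h1 : W (bm 0 ⁻¹' Seg 0 (1 / (m + 1)) (e / 3)) ≠ 0 := fun h => by
    rw [preimage_compl, prob_compl_eq_one_sub (m_bm _ (seg_closed _ _ _).measurableSet), h]
      at hm
    simp at hm
  have h2 := ch_pos hW d0.le (seg_pos hW d0 (by positivity) h1) v n
  rw [mul_div_cancel₀ _ three_ne_zero] at h2
  refine ⟨_, d0, _, ENNReal.sub_lt_self ENNReal.one_ne_top one_ne_zero h2, fun l hl => ?_⟩
  rw [preimage_compl, prob_compl_eq_one_sub (m_bm _ (ch_meas _ _ _ _))]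
  exact tsub_le_tsub_left (ch_scale hW d0 hl v n) _

end Vale.Agent.P155S.Reg
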