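import Vale.Agent.P155S.RegA

/-!
# P155: Brownian motion makes small loops around its starting point
-/

set_option linter.all false

noncomputable section

namespace Vale.Agent.P155S.Reg

open MeasureTheory Set Filter Topology Vale.Agent.P155.BL Complex
open scoped NNReal ENNReal

variable {W : Measure Pa} {s r d e η ρ : ℝ}

/-- the sides of the polygon -/
def vv (j : ℕ) : ℂ :=
  if j = 0 then 2 + I else if j = 1 then -3 else if j = 2 then -2 * I else if j = 3 then 2 else 3 * I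

/-- the path turns at the scale `l` -/
def Tn (d l : ℝ) : Set Pr := Ch (fun j => l * vv j) 5 (l ^ 2 * d) (l * (1 / 100))

theorem seg_bd {γ : Pr} {τ D e l : ℝ} {w : ℂ} (hD : 0 < D) (hl : 0 < l)
    (h : sft τ γ ∈ Seg (l * w) D e) {τ₀ τ₁ : ℝ} (h₀ : τ₀ = τ) (h₁ : τ₁ = τ + D) {s : ℝ}
    (hs : s ∈ Icc τ₀ τ₁) : ∃ φ : ℝ, 0 ≤ φ ∧ φ ≤ l ∧ (s = τ₁ → φ = l) ∧
      |(γ s).re - (γ τ₀).re - φ * w.re| ≤ e ∧ |(γ s).im - (γ τ₀).im - φ * w.im| ≤ e := by
  subst h₀ h₁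
  have := h (s - τ₀) ⟨by linarith [hs.1], by linarith [hs.2]⟩
  rw [sft_of _ (by linarith [hs.1]), sft_of _ le_rfl, add_sub_cancel, add_zero, ← mul_assoc,
    ← ofReal_mul] at this
  refine ⟨(s - τ₀) / D * l, mul_nonneg (div_nonneg (by linarith [hs.1]) hD.le) hl.le,
    mul_le_of_le_one_left hl.le (div_le_one_of_le₀ (by linarith [hs.2]) hD.le),
    fun e => by rw [e, add_sub_cancel_left, div_self hD.ne', one_mul], ?_, ?_⟩
  · simpa only [sub_re, re_ofReal_mul] using (abs_re_le_norm _).trans this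
  · simpa only [sub_im, im_ofReal_mul] using (abs_im_le_norm _).trans this

theorem tn_sep {γ : Pr} {l : ℝ} {a : ℂ} (hd : 0 < d) (hl : 0 < l) (h : γ ∈ Tn d l)
    (ha : ‖γ 0 - a‖ ≤ l / 10) {U : Set ℂ} (hU : IsPreconnected U) {u v : ℂ} (hu : u ∈ U) (hv : v ∈ U)
    (hu' : 10 * l < ‖u - a‖) (hv' : ‖v - a‖ ≤ l / 2) : ∃ s, γ s ∈ U := by
  have hD : 0 < l ^ 2 * d := by positivity
  have H := fun j (hj : j < 5) => @seg_bd γ _ _ _ _ _ hD hl (mem_iInter₂.1 h j hj)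
  generalize l ^ 2 * d = D at hD H
  have k0 := @H 0 (by omega) 0 D (by simp) (by simp)
  have k1 := @H 1 (by omega) D (2 * D) (by simp) (by push_cast; ring)
  have k2 := @H 2 (by omega) (2 * D) (3 * D) (by simp) (by push_cast; ring)
  have k3 := @H 3 (by omega) (3 * D) (4 * D) (by simp) (by push_cast; ring)
  have k4 := @H 4 (by omega) (4 * D) (5 * D) (by simp) (by push_cast; ring)
  have a1 := abs_le.1 ((abs_re_le_norm _).trans ha)
  have a2 := abs_le.1 ((abs_im_le_norm _).trans ha)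
  simp only [vv, abs_le, sub_re, sub_im] at k0 k1 k2 k3 k4 a1 a2
  norm_num only [if_true, if_false, add_re, add_im, neg_re, neg_im, mul_re, mul_im, I_re, I_im,
    re_ofNat, im_ofNat] at k0 k1 k2 k3 k4
  obtain ⟨_, -, -, e0, f0⟩ := k0 (right_mem_Icc.2 hD.le)
  obtain ⟨_, -, -, e1, f1⟩ := k1 (right_mem_Icc.2 (by linarith))
  obtain ⟨_, -, -, e2, f2⟩ := k2 (right_mem_Icc.2 (by linarith))
  obtain ⟨_, -, -, e3, f3⟩ := k3 (right_mem_Icc.2 (by linarith))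
  obtain ⟨_, -, -, e4, f4⟩ := k4 (right_mem_Icc.2 (by linarith))
  rw [e0 rfl] at f0
  rw [e1 rfl] at f1
  rw [e2 rfl] at f2
  rw [e3 rfl] at f3
  rw [e4 rfl] at f4
  obtain ⟨s, -, hs⟩ := sep γ.continuous (t₁ := D) (t₂ := 2 * D) (t₃ := 3 * D) (t₄ := 4 * D)
    (t₅ := 5 * D) (l := l / 2) (m := 3 * l / 2) (R := 10 * l) (a := a) (by linarith) (by linarith)
    (by linarith) (by linarith)
    (fun s hs => by
      obtain ⟨φ, b1, b2, -, b3⟩ := k1 hs
      rw [sub_im]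
      constructor <;> linarith)
    (fun s hs => by
      obtain ⟨φ, b1, b2, -, b3⟩ := k2 hs
      rw [sub_re]
      linarith)
    (fun s hs => by
      obtain ⟨φ, b1, b2, -, b3⟩ := k3 hs
      rw [sub_im]
      linarith)
    (fun s hs => by
      obtain ⟨φ, b1, b2, -, b3⟩ := k4 hs
      rw [sub_re]
      constructor <;> linarith)
    (by rw [sub_re]; linarith) (by rw [sub_im]; linarith)
    (fun s hs => by
      have : |(γ s - a).re| ≤ 5 * l ∧ |(γ s - a).im| ≤ 5 * l := by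
        simp only [abs_le, sub_re, sub_im]
        rcases le_total s (2 * D) with c | c
        · obtain ⟨φ, b1, b2, -, b3⟩ := k1 ⟨hs.1, c⟩
          refine ⟨⟨?_, ?_⟩, ?_, ?_⟩ <;> linarith
        rcases le_total s (3 * D) with c' | c'
        · obtain ⟨φ, b1, b2, -, b3⟩ := k2 ⟨c, c'⟩
          refine ⟨⟨?_, ?_⟩, ?_, ?_⟩ <;> linarith
        rcases le_total s (4 * D) with c'' | c''
        · obtain ⟨φ, b1, b2, -, b3⟩ := k3 ⟨c', c''⟩
          refine ⟨⟨?_, ?_⟩, ?_, ?_⟩ <;> linarith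
        · obtain ⟨φ, b1, b2, -, b3⟩ := k4 ⟨c'', hs.2⟩
          refine ⟨⟨?_, ?_⟩, ?_, ?_⟩ <;> linarith
      linarith [norm_le_abs_re_add_abs_im (γ s - a)]) hU hu hv hu' hv'
  exact ⟨s, hs⟩

/-- the scales -/
def sc (n : ℕ) : ℝ := 1 / (n + 1)

theorem sc_pos (n : ℕ) : 0 < sc n := Nat.one_div_pos_of_nat

theorem sc_anti {m n : ℕ} (h : m ≤ n) : sc n ≤ sc m := Nat.one_div_le_one_div h

theorem sc_ev (he : 0 < e) : ∀ᶠ n in atTop, sc n ≤ e :=
  (tendsto_one_div_add_atTop_nhds_zero_nat (𝕜 := ℝ)).eventually_le_const he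

/-- no loop around the starting point at the scales `sc n`, `n ≤ k` -/
def No (d η ρ : ℝ) (k : ℕ∞) : Set Pr := ⋂ (m : ℕ) (n : ℕ) (_ : n ≤ k)
  (_ : sc m + 5 * (sc n ^ 2 * d) ≤ η) (_ : 10 * sc n ≤ ρ),
    (Seg 0 (sc m) (sc n / 10))ᶜ ∪ sft (sc m) ⁻¹' (Tn d (sc n))ᶜ

theorem no_meas (d η ρ : ℝ) (k : ℕ∞) : MeasurableSet (No d η ρ k) :=
  .iInter fun _ => .iInter fun _ => .iInter fun _ => .iInter fun _ => .iInter fun _ =>
    (seg_closed _ _ _).measurableSet.compl.union (m_sft _ (ch_meas _ _ _ _).compl)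

theorem no_di (hd : 0 ≤ d) (η ρ : ℝ) (k : ℕ∞) : Di η (No d η ρ k) := fun γ γ' a b => by
  simp only [No, mem_iInter] at b ⊢
  intro m n h1 h2 h3
  have := sc_pos m
  have h4 : 0 ≤ sc n ^ 2 * d := by positivity
  refine (b m n h1 h2 h3).imp ((seg_di _ _ _).compl γ γ' fun t ht => a t ⟨ht.1, ?_⟩)
    ((ch_di _ 5 h4 _).compl.sft this.le (by positivity) γ γ' fun t ht => a t ⟨ht.1, ?_⟩)
  · linarith [ht.2]
  · exact ht.2.trans (by exact_mod_cast h2)

theorem no_sep (hd : 0 < d) {k : ℕ} {γ : Pr} {U : Set ℂ} (hU : IsPreconnected U) {u v : ℂ}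
    (hu : u ∈ U) (hv : v ∈ U) (hu' : ρ < ‖u - γ 0‖) (hv' : ‖v - γ 0‖ ≤ sc k / 2)
    (h : ∀ s, γ s ∉ U) : γ ∈ No d η ρ k := by
  simp only [No, mem_iInter]
  intro m n h1 h2 h3
  refine or_iff_not_imp_left.2 fun h4 h5 => ?_
  have h6 := not_not.1 h4 (sc m) ⟨(sc_pos m).le, le_rfl⟩
  have := sc_anti (show n ≤ k by exact_mod_cast h1)
  obtain ⟨s, hs⟩ := tn_sep hd (sc_pos n) h5 (a := γ 0) (by simpa [sft_of] using h6) hU hu hv
    (by linarith) (by linarith)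
  exact h _ hs

theorem no_null (hW : IsWiener W) : ∃ d > 0, ∀ η > 0, ∀ ρ > 0,
    Tendsto (fun k : ℕ => W (bm 0 ⁻¹' No d η ρ k)) atTop (𝓝 0) := by
  have := hW.prob
  obtain ⟨d, hd, q, hq, h⟩ := exists_ch hW (show (0 : ℝ) < 1 / 100 by norm_num) vv 5
  refine ⟨d, hd, fun η₀ hη₀ ρ hρ => ?_⟩
  set f := ⨆ (η : ℝ) (_ : 0 < η), W (bm 0 ⁻¹' No d η ρ ⊤)
  have f1 : ∀ η > 0, W (bm 0 ⁻¹' No d η ρ ⊤) ≤ f := fun η hη =>
    le_iSup₂_of_le (f := fun η (_ : 0 < η) => W (bm 0 ⁻¹' No d η ρ ⊤)) η hη le_rfl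
  have f2 : f ≤ f * q := iSup₂_le fun η hη => by
    obtain ⟨n, n1, n2, n3⟩ := ((sc_ev (show 0 < η / (10 * d) by positivity)).and
      ((sc_ev (show 0 < ρ / 10 by positivity)).and (sc_ev one_pos))).exists
    have n0 := sc_pos n
    rw [le_div_iff₀ (by positivity)] at n1
    have h1 := (small hW (show 0 < sc n / 10 by positivity) 0).const_add (f * q)
    rw [add_zero] at h1
    refine ge_of_tendsto h1 ((sc_ev (half_pos hη)).mono fun m hm => ?_)
    have m0 := sc_pos m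
    refine le_trans (measure_mono (t := bm 0 ⁻¹' (No d (sc m) ρ ⊤ ∩ sft (sc m) ⁻¹' (Tn d (sc n))ᶜ) ∪
      bm 0 ⁻¹' (Seg 0 (sc m) (sc n / 10))ᶜ) fun ω hω => ?_) ((measure_union_le _ _).trans
        (add_le_add_left ?_ _))
    · simp only [No, mem_preimage, mem_iInter] at hω
      refine (hω m n le_top (by nlinarith [mul_pos n0 hd]) (by linarith)).symm.imp_left fun h2 =>
        ⟨?_, h2⟩
      simp only [No, mem_iInter]
      exact fun m' n' a b c => hω m' n' a (by linarith) c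
    · rw [Tn, mk hW m0.le (no_meas _ _ _ _) (ch_meas _ _ _ _).compl ((no_di hd.le _ _ _).dp m0.le)
        (ch_di _ 5 (by positivity) _).compl]
      exact mul_le_mul' (f1 _ m0) (h _ n0)
  have f3 : f = 0 := by_contra fun f0 => (f2.trans_lt ((ENNReal.mul_lt_mul_right f0
    (ne_top_of_le_ne_top ENNReal.one_ne_top (iSup₂_le fun _ _ => prob_le_one)) hq).trans_eq
      (mul_one f))).false
  have h1 := tendsto_measure_iInter_atTop (μ := W) (s := fun k : ℕ => bm 0 ⁻¹' No d η₀ ρ k)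
    (fun k => (m_bm _ (no_meas _ _ _ _)).nullMeasurableSet)
    (fun k k' hk => preimage_mono (iInter₂_mono fun m n => iInter_mono' fun h =>
      ⟨h.trans (by exact_mod_cast hk), subset_rfl⟩)) ⟨0, measure_ne_top _ _⟩
  rwa [measure_mono_null (t := bm 0 ⁻¹' No d η₀ ρ ⊤) (fun ω hω => ?_)
    (le_zero_iff.1 (f3 ▸ f1 _ hη₀))] at h1
  simp only [No, mem_preimage, mem_iInter] at hω ⊢
  exact fun m n _ => hω n m n le_rfl

end Vale.Agent.P155S.Reg
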