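import Vale.Agent.P155S.Sk

/-!
# P155: the restriction formula, one component
-/

set_option linter.all false

namespace Vale.Agent.P155.Soup

open Set Vale.Agent.P155 Vale.Agent.P155.BL

/-- **MGEc**: the part of `B` in `V` lies in one component of `V \ E` -/
def MGEc : Prop := ∀ W, IsWiener W → ∀ V E B, Seed V E B →
  (∃ z, B ∩ V ⊆ connectedComponentIn (V \ E) z) → 1 ≤ mm W V B E

end Vale.Agent.P155.Soup
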